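import Crest.Agent.R182.PUR.Basic

/-! R182/PUR/Chain (owner helper57): chains of links, and from links to purity. -/

set_option autoImplicit false
set_option linter.unusedVariables false
set_option linter.unusedSectionVars false
open Set Filter Topology MeasureTheory ProbabilityTheory Matrix Crest.GroupTheory
open scoped Pointwise commutatorElement ENNReal

noncomputable section
namespace Crest.Agent.R182.PUR
variable {h k : ℕ} {M : Model h k}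

/-! ### task Chain-a -/

theorem cha_tri {φ : M.G → M.G} {Lp : M.G → Mat k} {ν : Measure M.G} [IsProbabilityMeasure ν] (hφ : Measurable φ) (hL : Sel M Lp)
    {ρ ζ : ℝ} {δ : ℝ≥0∞} (hρ : 1 ≤ ρ) {a b : ℕ} {A A' A'' : M.G} (h1 : om M φ Lp ν ρ (a * ζ) A A' ≤ a * δ)
    (h2 : om M φ Lp ν ρ (b * ζ) A' A'' ≤ b * δ) : om M φ Lp ν ρ ((a + b : ℕ) * ζ) A A'' ≤ (a + b : ℕ) * δ := by
  rw [Nat.cast_add, Nat.cast_add, add_mul, add_mul]
  exact (om_tri hφ hL hρ _ _ A A' A'').trans (add_le_add h1 h2)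

theorem cha_mono {φ : M.G → M.G} {Lp : M.G → Mat k} {ν : Measure M.G} {ρ ζ : ℝ} {δ : ℝ≥0∞} (hζ : 0 ≤ ζ) {a b : ℕ} (hab : a ≤ b)
    {A A' : M.G} (h1 : om M φ Lp ν ρ (a * ζ) A A' ≤ a * δ) : om M φ Lp ν ρ (b * ζ) A A' ≤ b * δ := by
  refine ((om_mono (mul_le_mul_of_nonneg_right (Nat.cast_le.2 hab) hζ) A A').trans h1).trans ?_
  gcongr

/-- Walking along an admissible word in steps of `⌊ρ⌋₊` letters (`ρ ≥ 2`, so `⌊ρ⌋₊ ≥ ρ / 2`): induction on `N` for the prefixes `l.take (N ⌊ρ⌋₊)`, starting with the link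
`c = 1`; `om_tri`, `om_mono`. -/
theorem walk {φ : M.G → M.G} {Lp : M.G → Mat k} {ν : Measure M.G} [IsProbabilityMeasure ν] (hφ : Measurable φ) (hL : Sel M Lp)
    {ρ ζ T w ℓ H : ℝ} {δ : ℝ≥0∞} (hρ : 2 ≤ ρ) (hζ : 0 ≤ ζ) {N : ℕ} (hN : 2 * ℓ ≤ N * ρ)
    (hC : ∀ A ∈ Vx M T w ℓ H, ∀ c ∈ M.ballCR ρ, om M φ Lp ν ρ ζ A (A * c) ≤ δ) {Y : V h} (hY : Y ∈ T • M.Box w) {b : M.G}
    (hb : b ∈ M.AdmC ℓ H) : om M φ Lp ν ρ ((N + 1) * ζ) (M.exp Y) (M.exp Y * b) ≤ (N + 1) * δ := by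
  obtain ⟨l, hl, hℓ, hH, rfl⟩ := hb
  have hρ1 : (1 : ℝ) ≤ ρ := by linarith
  have hV : ∀ n : ℕ, M.exp Y * (l.take n).prod ∈ Vx M T w ℓ H := fun n => by
    refine ⟨Y, hY, _, M.ballCR_mono ?_ (Model.WrdC.prod_mem (l := l.take n) fun x hx => hl x (List.mem_of_mem_take hx)),
      hH _ (List.take_prefix n l), rfl⟩
    exact le_trans (Nat.cast_le.2 (List.length_take_le' n l)) hℓ
  have hs : (⌊ρ⌋₊ : ℝ) ≤ ρ := Nat.floor_le (by linarith)
  have hs' : ρ / 2 ≤ ⌊ρ⌋₊ := by have := Nat.lt_floor_add_one ρ; linarith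
  have key : ∀ n : ℕ, om M φ Lp ν ρ ((n + 1 : ℕ) * ζ) (M.exp Y) (M.exp Y * (l.take (n * ⌊ρ⌋₊)).prod) ≤ (n + 1 : ℕ) * δ := by
    intro n
    induction n with
    | zero =>
      have h0 := hC _ (hV 0) 1 (M.one_mem_ballCR (by linarith))
      simpa using h0
    | succ n ih =>
      refine cha_tri hφ hL hρ1 ih (b := 1) ?_
      have hc : ((l.drop (n * ⌊ρ⌋₊)).take ⌊ρ⌋₊).prod ∈ M.ballCR ρ := by
        refine M.ballCR_mono ?_ (Model.WrdC.prod_mem (l := (l.drop (n * ⌊ρ⌋₊)).take ⌊ρ⌋₊)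
          fun x hx => hl x (List.mem_of_mem_drop (List.mem_of_mem_take hx)))
        exact le_trans (Nat.cast_le.2 (List.length_take_le _ _)) hs
      have h1 := hC _ (hV (n * ⌊ρ⌋₊)) _ hc
      rw [add_mul, one_mul, List.take_add, List.prod_append, ← mul_assoc]
      simpa using h1
  have hlen : l.length ≤ N * ⌊ρ⌋₊ := by
    have h1 : (l.length : ℝ) ≤ N * ⌊ρ⌋₊ := by
      have := mul_le_mul_of_nonneg_left hs' (Nat.cast_nonneg (α := ℝ) N)
      linarith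
    exact_mod_cast h1
  have h2 := key N
  rw [List.take_of_length_le hlen] at h2
  simpa using h2

/-- `exp Y = exp X₁ ⋯ exp X_m`, `m ≤ m₁` (`exists_reach` for `RV w`; `m₀ = 2 m₁ + 1`), all partial products lie in `exp (T • Box w)` (`exists_prod_In`, `RV_subset_Box`).  Each factor:
`walk` up to `b`, E-link, `walk` back (`om_symm`); finally `walk` along `y`. -/
theorem chain (M : Model h k) (t : ℝ) : ∃ (T : ℝ) (m₀ : ℕ), 1 ≤ T ∧ ∀ (φ : M.G → M.G) (Lp : M.G → Mat k) (ν : Measure M.G) (ρ ζ w ℓ H : ℝ)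
    (δ : ℝ≥0∞) (N : ℕ), IsProbabilityMeasure ν → Measurable φ → Sel M Lp → 2 ≤ ρ → 0 ≤ ζ → 2 * ℓ ≤ N * ρ →
    (∀ A ∈ Vx M T w ℓ H, ∀ c ∈ M.ballCR ρ, om M φ Lp ν ρ ζ A (A * c) ≤ δ) →
    (∀ X ∈ M.RV w, ∃ b ∈ M.AdmC ℓ H, ∀ Y ∈ T • M.Box w, ∀ Y' ∈ T • M.Box w, M.exp Y' = M.exp Y * M.exp X →
      om M φ Lp ν ρ (2 * ζ) (M.exp Y * b) (M.exp Y' * b) ≤ 2 * δ) →
    ∀ Y ∈ t • M.Box w, ∀ y ∈ M.AdmC ℓ H,
      om M φ Lp ν ρ (m₀ * (N + 2) * ζ) 1 (M.exp Y * y) ≤ m₀ * (N + 2) * δ := by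
  obtain ⟨m₁, hm₁⟩ := M.exists_reach t
  obtain ⟨T, hT, hP⟩ := M.exists_prod_In m₁ 1
  refine ⟨T, 2 * m₁ + 1, hT, fun φ Lp ν ρ ζ w ℓ H δ N hν hφ hL hρ hζ hN hC hE Y hY y hy => ?_⟩
  have hρ1 : (1 : ℝ) ≤ ρ := by linarith
  have hW : ∀ Z ∈ T • M.Box w, ∀ b ∈ M.AdmC ℓ H,
      om M φ Lp ν ρ ((N + 1 : ℕ) * ζ) (M.exp Z) (M.exp Z * b) ≤ (N + 1 : ℕ) * δ := fun Z hZ b hb => by
    simpa using walk hφ hL hρ hζ hN hC hZ hb
  have hZ : ∀ u : List (V h), u.length ≤ m₁ → (∀ v ∈ u, v ∈ M.RV w) → ∃ Z ∈ T • M.Box w, (u.map M.exp).prod = M.exp Z :=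
    fun u h1 h2 => hP _ (M.star_RV w) u h1 fun v hv => Core.In.of_gen (h2 v hv)
  have key : ∀ u₂ u₁ : List (V h), (u₁ ++ u₂).length ≤ m₁ → (∀ v ∈ u₁ ++ u₂, v ∈ M.RV w) →
      om M φ Lp ν ρ ((2 * (N + 2) * u₂.length + (N + 1) : ℕ) * ζ) (u₁.map M.exp).prod (((u₁ ++ u₂).map M.exp).prod * y) ≤
        (2 * (N + 2) * u₂.length + (N + 1) : ℕ) * δ := by
    intro u₂
    induction u₂ with
    | nil =>
      intro u₁ h1 h2
      rw [List.append_nil] at h1 h2 ⊢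
      obtain ⟨Z, hZ1, hZ2⟩ := hZ u₁ h1 h2
      rw [hZ2]
      simpa using hW Z hZ1 y hy
    | cons X u₂ ih =>
      intro u₁ h1 h2
      have e : u₁ ++ X :: u₂ = (u₁ ++ [X]) ++ u₂ := by simp
      rw [e] at h1 h2 ⊢
      have ih' := ih (u₁ ++ [X]) h1 h2
      simp only [List.length_append, List.length_singleton] at h1
      obtain ⟨Z, hZ1, hZ2⟩ := hZ u₁ (by omega) fun v hv => h2 v (by simp [hv])
      obtain ⟨Z', hZ1', hZ2'⟩ := hZ (u₁ ++ [X]) (by simp; omega) fun v hv => h2 v (List.mem_append_left _ hv)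
      obtain ⟨b, hb, hE'⟩ := hE X (h2 X (by simp))
      have h3 : M.exp Z' = M.exp Z * M.exp X := by rw [← hZ2', ← hZ2]; simp
      have s1 := hW Z hZ1 b hb
      have s2 : om M φ Lp ν ρ ((2 : ℕ) * ζ) (M.exp Z * b) (M.exp Z' * b) ≤ (2 : ℕ) * δ := by
        simpa using hE' Z hZ1 Z' hZ1' h3
      have s3 := hW Z' hZ1' b hb
      rw [om_symm hφ hL hρ1] at s3
      rw [hZ2'] at ih'
      rw [hZ2]
      refine cha_mono hζ (le_of_eq ?_) (cha_tri hφ hL hρ1 (cha_tri hφ hL hρ1 (cha_tri hφ hL hρ1 s1 s2) s3) ih')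
      simp only [List.length_cons]
      ring
  obtain ⟨u, hu1, hu2, hu3⟩ := hm₁ _ (M.star_RV w) Y hY
  have h1 := key u [] (by simpa using hu1) (by simpa using hu2)
  rw [List.nil_append, hu3] at h1
  have h2 : 2 * (N + 2) * u.length + (N + 1) ≤ (2 * m₁ + 1) * (N + 2) := by nlinarith
  simpa using cha_mono hζ h2 h1

/-! ### task Chain-b -/

theorem chb_fub {G : Type*} [MeasurableSpace G] (ν la lb : Measure G) [SFinite ν] [SFinite la] [SFinite lb]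
    {S : Set (G × G × G × G)} (hS : MeasurableSet S) :
    ∫⁻ p, ∫⁻ z, ∫⁻ x, la {z' | (p, z, x, z') ∈ S} ∂lb ∂la ∂ν = ∫⁻ x, ∫⁻ z, ∫⁻ z', ν {p | (p, z, x, z') ∈ S} ∂la ∂la ∂lb := by
  obtain ⟨f, hf, hfS⟩ : ∃ f : G × G × G × G → ℝ≥0∞, Measurable f ∧ f = S.indicator 1 :=
    ⟨_, measurable_one.indicator hS, rfl⟩
  have e1 : ∀ p z x, la {z' | (p, z, x, z') ∈ S} = ∫⁻ z', f (p, z, x, z') ∂la := fun p z x => by
    have hm : MeasurableSet {z' | (p, z, x, z') ∈ S} := (by fun_prop : Measurable fun z' : G => (p, z, x, z')) hS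
    rw [← lintegral_indicator_one hm, hfS]; rfl
  have e2 : ∀ z x z', ν {p | (p, z, x, z') ∈ S} = ∫⁻ p, f (p, z, x, z') ∂ν := fun z x z' => by
    have hm : MeasurableSet {p | (p, z, x, z') ∈ S} := (by fun_prop : Measurable fun p : G => (p, z, x, z')) hS
    rw [← lintegral_indicator_one hm, hfS]; rfl
  simp only [e1, e2]
  have m4 : Measurable fun q : G × G × G => ∫⁻ z', f (q.1, q.2.1, q.2.2, z') ∂la :=
    Measurable.lintegral_prod_right' (f := fun r : (G × G × G) × G => f (r.1.1, r.1.2.1, r.1.2.2, r.2)) (by fun_prop)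
  have m4' : Measurable fun q : G × G × G => ∫⁻ p, f (p, q.1, q.2.1, q.2.2) ∂ν :=
    Measurable.lintegral_prod_right' (f := fun r : (G × G × G) × G => f (r.2, r.1.1, r.1.2.1, r.1.2.2)) (by fun_prop)
  have m3 : Measurable fun q : G × G => ∫⁻ x, ∫⁻ z', f (q.1, q.2, x, z') ∂la ∂lb :=
    Measurable.lintegral_prod_right' (f := fun r : (G × G) × G => ∫⁻ z', f (r.1.1, r.1.2, r.2, z') ∂la)
      (m4.comp (by fun_prop : Measurable fun r : (G × G) × G => (r.1.1, r.1.2, r.2)))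
  have m3' : Measurable fun q : G × G => ∫⁻ z', ∫⁻ p, f (p, q.1, q.2, z') ∂ν ∂la :=
    Measurable.lintegral_prod_right' (f := fun r : (G × G) × G => ∫⁻ p, f (p, r.1.1, r.1.2, r.2) ∂ν)
      (m4'.comp (by fun_prop : Measurable fun r : (G × G) × G => (r.1.1, r.1.2, r.2)))
  rw [lintegral_lintegral_swap (f := fun p z => ∫⁻ x, ∫⁻ z', f (p, z, x, z') ∂la ∂lb) m3.aemeasurable]
  refine Eq.trans ?_ (lintegral_lintegral_swap (μ := la) (ν := lb) (f := fun z x => ∫⁻ z', ∫⁻ p, f (p, z, x, z') ∂ν ∂la)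
    m3'.aemeasurable)
  refine lintegral_congr fun z => ?_
  rw [lintegral_lintegral_swap (f := fun p x => ∫⁻ z', f (p, z, x, z') ∂la)
    (m4.comp (by fun_prop : Measurable fun r : G × G => (r.1, z, r.2))).aemeasurable]
  refine lintegral_congr fun x => ?_
  exact lintegral_lintegral_swap (f := fun p z' => f (p, z, x, z'))
    (hf.comp (by fun_prop : Measurable fun r : G × G => (r.1, z, x, r.2))).aemeasurable

theorem chb_abs {G ι : Type*} [MeasurableSpace G] (ν la lb : Measure G) [IsProbabilityMeasure ν] [IsProbabilityMeasure la]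
    [IsProbabilityMeasure lb] (F : Finset ι) (S : ι → Set (G × G × G × G)) (hS : ∀ y, MeasurableSet (S y)) {δ c : ℝ≥0∞}
    (hc : c ≠ 0) (hc' : c ≠ ∞) (H : ∀ y ∈ F, ∀ᵐ x ∂lb, ∫⁻ z, ∫⁻ z', ν {p | (p, z, x, z') ∈ S y} ∂la ∂la ≤ δ) :
    ν {p | ¬∃ z, ∀ y ∈ F, ∫⁻ x, la {z' | (p, z, x, z') ∈ S y} ∂lb ≤ c} ≤ F.card * δ / c := by
  have m : ∀ y, Measurable fun q : G × G => ∫⁻ x, la {z' | (q.1, q.2, x, z') ∈ S y} ∂lb := fun y => by
    refine Measurable.lintegral_prod_right' (f := fun r : (G × G) × G => la {z' | (r.1.1, r.1.2, r.2, z') ∈ S y}) ?_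
    exact measurable_measure_prodMk_left (ν := la)
      ((by fun_prop : Measurable fun u : ((G × G) × G) × G => (u.1.1.1, u.1.1.2, u.1.2, u.2)) (hS y))
  have m1 : ∀ y p, Measurable fun z : G => ∫⁻ x, la {z' | (p, z, x, z') ∈ S y} ∂lb := fun y p =>
    (m y).comp (by fun_prop : Measurable fun z : G => (p, z))
  have m2 : ∀ y, Measurable fun p : G => ∫⁻ z, ∫⁻ x, la {z' | (p, z, x, z') ∈ S y} ∂lb ∂la := fun y =>
    (m y).lintegral_prod_right'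
  have hm : Measurable fun p : G => ∑ y ∈ F, ∫⁻ z, ∫⁻ x, la {z' | (p, z, x, z') ∈ S y} ∂lb ∂la :=
    Finset.measurable_sum _ fun y _ => m2 y
  refine le_trans (measure_mono fun p hp => ?_) ((meas_ge_le_lintegral_div hm.aemeasurable hc hc').trans ?_)
  · by_contra hn
    simp only [mem_setOf_eq, not_le] at hn
    obtain ⟨z, hz⟩ := exists_le_lintegral (μ := la) (f := fun z => ∑ y ∈ F, ∫⁻ x, la {z' | (p, z, x, z') ∈ S y} ∂lb)
      (Finset.measurable_sum _ fun y _ => m1 y p).aemeasurable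
    rw [lintegral_finsetSum _ fun y _ => m1 y p] at hz
    exact hp ⟨z, fun y hy => (Finset.single_le_sum (f := fun y => ∫⁻ x, la {z' | (p, z, x, z') ∈ S y} ∂lb)
      (fun _ _ => zero_le) hy).trans (hz.trans hn.le)⟩
  · refine ENNReal.div_le_div_right ?_ c
    rw [lintegral_finsetSum _ fun y _ => m2 y, ← nsmul_eq_mul]
    refine Finset.sum_le_card_nsmul _ _ _ fun y hy => ?_
    rw [chb_fub ν la lb (hS y)]
    refine (lintegral_mono_ae (H y hy)).trans ?_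
    simp

/-- From links to purity.  `t₁, D₁` from `lw_dom` (for `max t 1`), `F` from `exists_netC (t / ρ₀)` at the scale `ρ = ρ₀ w` (first form, `S = AdmC (t w) ((1 - ε) w)`), `stay`.
`G y (p, z₀) = ∫⁻ x, lwC ρ {z' | ¬Ok (ε w / 2) (p z₀) (p x y z')} ∂lw E (t₁ • Box w)` has mean `∫⁻ x, om 1 (x y) ≤ δ`; Markov and a union bound over `y ∈ F`: the set `B` of
`(p, z₀)` with some `G y > ε / D₁` has measure `≤ card F * D₁ δ / ε ≤ ε`.  If `(p, z₀) ∉ B` then `PF` holds at `p` with `L = Lp (p z₀)`, `κ = er L (p z₀)`: for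
`g = exp X * y * c'`, `c' ∈ ballCR ρ`, a bad `x` has `¬Ok (p z₀) (p x exp X y z')` for all `z' ∈ ballCR ρ` (`Lip.norm_er`: `(K + k Λ) 2 ρ + K ≤ ε w / 2`).
So `ν {¬PF} ≤ ν {p | ∀ z₀, (p, z₀) ∈ B} ≤ (ν.prod (lwC ρ)) B`.  (For `1 < ε` the bound is trivial.) -/
theorem pur_of_om (M : Model h k) (K t ε : ℝ) (hε : 0 < ε) : ∃ t₁ ρ₁ : ℝ, 0 < ρ₁ ∧ ∀ ρ₀ : ℝ, 0 < ρ₀ → ρ₀ ≤ ρ₁ → ∃ δ w₀ : ℝ, 0 < δ ∧
    ∀ (f : M.QP K) (Lp : M.G → Mat k) (ν : Measure M.G) (w : ℝ), w₀ ≤ w → IsProbabilityMeasure ν → Sel M Lp →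
      (∀ Y ∈ t₁ • M.Box w, ∀ y ∈ M.AdmC (t * w) ((1 - ε) * w), om M f.φ Lp ν (ρ₀ * w) (ε * w / 2) 1 (M.exp Y * y) ≤ ENNReal.ofReal δ) →
      ν {p | ¬∃ L ∈ M.W1, ∃ κ, M.PF f.φ p w L κ t ε} ≤ ENNReal.ofReal ε := by
  by_cases hε1 : 1 ≤ ε
  · refine ⟨1, 1, one_pos, fun ρ₀ _ _ => ⟨1, 0, one_pos, fun f Lp ν w _ hν _ _ => prob_le_one.trans ?_⟩⟩
    simpa using hε1
  obtain ⟨t₁, D₁, ht₁, hD₁, Hd⟩ := M.lw_dom (le_max_right t 1)
  obtain ⟨Λ, hΛ, HΛ⟩ := M.exists_mb_W1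
  obtain ⟨w₁, Hs⟩ := M.stay t ε hε
  have hA : 0 < |K| + k * Λ + 1 := by positivity
  refine ⟨t₁, ε / (8 * (|K| + k * Λ + 1)), by positivity, fun ρ₀ hρ₀ hρ₁ => ?_⟩
  obtain ⟨D, HD⟩ := M.exists_netC (t / ρ₀)
  refine ⟨ε ^ 2 / (D₁ * (D + 1)), max (max w₁ 0) (max (2 / ρ₀) (4 * K / ε)), by positivity, fun f Lp ν w hw hν hL H => ?_⟩
  have hw1 : w₁ ≤ w := ((le_max_left _ _).trans (le_max_left _ _)).trans hw
  have hw0 : 0 ≤ w := ((le_max_right _ _).trans (le_max_left _ _)).trans hw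
  have hρ : 2 ≤ ρ₀ * w := by
    have := ((le_max_left _ _).trans (le_max_right _ _)).trans hw
    rw [div_le_iff₀ hρ₀] at this; linarith
  have hK : 4 * K ≤ ε * w := by
    have := ((le_max_right _ _).trans (le_max_right _ _)).trans hw
    rw [div_le_iff₀ hε] at this; linarith
  have hlip : (|K| + k * Λ + 1) * (ρ₀ * w + ρ₀ * w) ≤ ε * w / 4 := by
    rw [le_div_iff₀ (by positivity)] at hρ₁
    nlinarith [mul_le_mul_of_nonneg_right hρ₁ hw0]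
  have ht1 : (1 : ℝ) ≤ t₁ := (le_max_right _ _).trans ht₁
  have := M.isProbabilityMeasure_lwC (r := ρ₀ * w) (by linarith)
  have := M.isProbabilityMeasure_lw_Box (t := t₁) (by linarith) w
  obtain ⟨⟨F, hF, hcard, hnet⟩, -⟩ := HD (ρ₀ * w) hρ (M.AdmC (t * w) ((1 - ε) * w)) (by
    have e : t / ρ₀ * (ρ₀ * w) = t * w := by field_simp
    rw [e]; exact M.AdmC_subset_ballCR _ _)
  have hS : ∀ y : M.G, MeasurableSet {u : M.G × M.G × M.G × M.G |
      ¬Ok M f.φ Lp (ε * w / 2) (u.1 * 1 * u.2.1) (u.1 * (u.2.2.1 * y) * u.2.2.2)} := fun y =>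
    (by fun_prop : Measurable fun u : M.G × M.G × M.G × M.G => (u.1 * 1 * u.2.1, u.1 * (u.2.2.1 * y) * u.2.2.2))
      (measurableSet_Ok f.mφ hL (ε * w / 2)).compl
  have hD0 : 0 < D₁ := by linarith
  have key := chb_abs ν (M.lwC (ρ₀ * w)) (M.lw M.E (t₁ • M.Box w)) F _ hS (δ := ENNReal.ofReal (ε ^ 2 / (D₁ * (D + 1))))
    (c := ENNReal.ofReal (ε / D₁)) (by simp only [ne_eq, ENNReal.ofReal_eq_zero, not_le]; positivity) ENNReal.ofReal_ne_top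
    (fun y hy => by
      have h0 := M.lw_compl M.E ((M.isCompact_Box w).smul t₁)
      filter_upwards [compl_mem_ae_iff.2 h0] with x hx
      obtain ⟨Y, hY, rfl⟩ := compl_compl (M.exp '' _) ▸ hx
      exact H Y hY.2 y (hF hy))
  refine le_trans (measure_mono fun p hp => ?_) (key.trans ?_)
  · rintro ⟨z, hz⟩
    refine hp ⟨Lp (p * 1 * z), hL.1 _, M.er f.φ (Lp (p * 1 * z)) (p * 1 * z), fun s hs g hg => ?_⟩
    set L := Lp (p * 1 * z) with hLd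
    set κ := M.er f.φ L (p * 1 * z) with hκ
    obtain ⟨X, hX, c, hc, rfl⟩ := Hs w hw1 _ le_rfl _ le_rfl g hg
    obtain ⟨y, hy, hyc⟩ := hnet c hc
    have hAm : MeasurableSet {x : M.G | ε * w < ‖M.er f.φ L (p * x * c) - κ‖} :=
      measurableSet_lt measurable_const
        (((M.measurable_er f.mφ L).comp (by fun_prop : Measurable fun x : M.G => p * x * c)).sub_const κ).norm
    have h1 := (Hd M.E (M.RV w) s M.isIdl_E.isSub (M.star_RV w) (M.bxb_compact_RV w) hs.1 (hs.2.trans (le_max_left _ _)) X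
      (M.Box_subset_E w hX) (M.smul_Qi_mono (M.star_RV w) zero_le_one (le_max_right t 1) (by rw [one_smul]; exact hX))
      {x : M.G | ε * w < ‖M.er f.φ L (p * x * c) - κ‖}).1
    have h2 : M.lw M.E (t₁ • M.Box w) {x : M.G | ε * w < ‖M.er f.φ L (p * x * c) - κ‖} ≤ ENNReal.ofReal (ε / D₁) := by
      refine le_trans ?_ (hz y hy)
      rw [← lintegral_indicator_one hAm]
      refine lintegral_mono fun x => ?_
      by_cases hx : x ∈ {x : M.G | ε * w < ‖M.er f.φ L (p * x * c) - κ‖}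
      · rw [indicator_of_mem hx, Pi.one_apply, ← measure_univ (μ := M.lwC (ρ₀ * w))]
        refine measure_mono_ae ?_
        filter_upwards [lwC_ae (M := M) (ρ := ρ₀ * w) (by linarith)] with z' hz' _ hok
        have hb : z'⁻¹ * (y⁻¹ * c) ∈ M.ballR (ρ₀ * w + ρ₀ * w) :=
          M.ballCR_subset_ballR _ (M.mul_mem_ballCR (M.inv_mem_ballCR hz') hyc)
        have h3 := f.lφ.norm_er (HΛ L (hL.1 _)) (z'⁻¹ * (y⁻¹ * c)) (p * (x * y) * z')
        have e : p * (x * y) * z' * (z'⁻¹ * (y⁻¹ * c)) = p * x * c := by group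
        rw [e] at h3
        have h4 : ‖M.er f.φ L (p * (x * y) * z') - κ‖ ≤ ε * w / 2 := hok.2
        have h5 := norm_sub_le_norm_sub_add_norm_sub (M.er f.φ L (p * x * c)) (M.er f.φ L (p * (x * y) * z')) κ
        have h6 : (K + k * Λ) * (M.len (z'⁻¹ * (y⁻¹ * c)) : ℝ) ≤ (|K| + k * Λ + 1) * (ρ₀ * w + ρ₀ * w) :=
          mul_le_mul (by linarith [le_abs_self K]) hb (Nat.cast_nonneg _) hA.le
        have h7 : ε * w < ‖M.er f.φ L (p * x * c) - κ‖ := hx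
        linarith
      · rw [indicator_of_notMem hx]; exact zero_le
    refine le_trans (le_of_eq ?_) (h1.trans ((mul_le_mul_right h2 _).trans (le_of_eq ?_)))
    · congr 1
      ext x
      simp only [mem_setOf_eq, mul_assoc]
    · rw [← ENNReal.ofReal_mul hD0.le]
      congr 1
      field_simp
  · rw [← ENNReal.ofReal_natCast, ← ENNReal.ofReal_mul (Nat.cast_nonneg _), ← ENNReal.ofReal_div_of_pos (by positivity)]
    refine ENNReal.ofReal_le_ofReal ?_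
    have hc : (F.card : ℝ) ≤ D + 1 := by
      have : (F.card : ℝ) ≤ D := by exact_mod_cast hcard
      linarith
    calc (F.card : ℝ) * (ε ^ 2 / (D₁ * (D + 1))) / (ε / D₁) ≤ (D + 1) * (ε ^ 2 / (D₁ * (D + 1))) / (ε / D₁) := by gcongr
      _ = ε := by field_simp

end Crest.Agent.R182.PUR
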