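import Crest.Agent.R182.PUR.Defs

/-! R182/PUR/Basic (owner helper57): elementary facts on `Ok`, `Law`, `PA`, `om`. -/

set_option autoImplicit false
set_option linter.unusedVariables false
set_option linter.unusedSectionVars false
open Set Filter Topology MeasureTheory ProbabilityTheory Matrix Crest.GroupTheory
open scoped Pointwise commutatorElement ENNReal

noncomputable section
namespace Crest.Agent.R182.PUR
variable {h k : ℕ} {M : Model h k}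

variable {φ : M.G → M.G} {Lp : M.G → Mat k} {ν : Measure M.G} {ρ ζ ζ' : ℝ}

/-! ### task Basic-a -/

theorem Ok.symm {q q' : M.G} (h : Ok M φ Lp ζ q q') : Ok M φ Lp ζ q' q := by
  refine ⟨h.1.symm, ?_⟩
  rw [← h.1, norm_sub_rev]
  exact h.2

theorem Ok.trans {q q' q'' : M.G} (h : Ok M φ Lp ζ q q') (h' : Ok M φ Lp ζ' q' q'') : Ok M φ Lp (ζ + ζ') q q'' := by
  refine ⟨h.1.trans h'.1, ?_⟩
  have h2 := h'.2
  rw [← h.1] at h2
  rw [add_comm]
  exact (norm_sub_le_norm_sub_add_norm_sub _ _ _).trans (add_le_add h2 h.2)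

theorem Ok.mono {q q' : M.G} (h : Ok M φ Lp ζ q q') (hζ : ζ ≤ ζ') : Ok M φ Lp ζ' q q' := by
  exact ⟨h.1, h.2.trans hζ⟩

/-- a property of `(Lp (a x), x)` is a finite union over `L ∈ W1` (`finite_W1`) -/
theorem Sel.measurableSet {X : Type*} [MeasurableSpace X] (hL : Sel M Lp) {a : X → M.G} (ha : Measurable a) {Q : Mat k → X → Prop}
    (hQ : ∀ L, MeasurableSet {x | Q L x}) : MeasurableSet {x | Q (Lp (a x)) x} := by
  have e : {x | Q (Lp (a x)) x} = ⋃ L ∈ M.W1, a ⁻¹' {p | Lp p = L} ∩ {x | Q L x} := by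
    ext x
    simp only [mem_ofPred_eq, mem_iUnion, mem_inter_iff, mem_preimage]
    exact ⟨fun hx => ⟨_, hL.1 _, rfl, hx⟩, fun ⟨L, _, h1, h2⟩ => h1 ▸ h2⟩
  rw [e]
  exact MeasurableSet.biUnion M.finite_W1.countable fun L _ => (ha (hL.2 L)).inter (hQ L)

theorem measurableSet_Bad (hφ : Measurable φ) (hL : Sel M Lp) (e : ℝ) (g : M.G) : MeasurableSet (Bad M φ Lp e g) := by
  exact hL.measurableSet measurable_id (Q := fun L q => e < ‖M.cc φ g q - L *ᵥ M.chi g‖) fun L =>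
    measurableSet_lt measurable_const
      (((M.measurable_cc hφ).comp (measurable_const.prodMk measurable_id)).sub measurable_const).norm

theorem measurableSet_Ok (hφ : Measurable φ) (hL : Sel M Lp) (ζ : ℝ) : MeasurableSet {x : M.G × M.G | Ok M φ Lp ζ x.1 x.2} := by
  refine hL.measurableSet measurable_fst
    (Q := fun L (x : M.G × M.G) => L = Lp x.2 ∧ ‖M.er φ L x.2 - M.er φ L x.1‖ ≤ ζ) fun L => MeasurableSet.inter ?_ ?_
  · simp only [eq_comm (a := L)]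
    exact measurable_snd (hL.2 L)
  · exact measurableSet_le (((M.measurable_er hφ L).comp measurable_snd).sub
      ((M.measurable_er hφ L).comp measurable_fst)).norm measurable_const

theorem Law.mono {n : ℕ} {Λ₀ ε₁ δ₁ r η₁ Λ₀' ε₁' δ₁' r' η₁' : ℝ} {P : Measure M.G} (h : Law M φ Lp n Λ₀ ε₁ δ₁ r η₁ P) (h1 : Λ₀' ≤ Λ₀)
    (h2 : ε₁ ≤ ε₁') (h3 : δ₁ ≤ δ₁') (h4 : r' ≤ r) (h5 : η₁ ≤ η₁') : Law M φ Lp n Λ₀' ε₁' δ₁' r' η₁' P := by
  have hn : (0 : ℝ) ≤ n := Nat.cast_nonneg n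
  refine ⟨h.prob, fun c hc g hg => ?_, fun c hc =>
    (h.inv c (M.ballCR_mono h4 hc)).mono (image_mono (M.Gv_mono h4)) h5⟩
  refine le_trans (measure_mono fun q hq => ?_)
    ((h.gd c (M.ballCR_mono h4 hc) g (M.ballR_mono (mul_le_mul_of_nonneg_right h1 hn) hg)).trans
      (ENNReal.ofReal_le_ofReal h3))
  exact lt_of_le_of_lt (mul_le_mul_of_nonneg_right h2 hn) hq

theorem isProbabilityMeasure_PA [IsProbabilityMeasure ν] (hρ : 1 ≤ ρ) (A : M.G) : IsProbabilityMeasure (PA M ν ρ A) := by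
  have := M.isProbabilityMeasure_lwC hρ
  exact Measure.isProbabilityMeasure_map ((measurable_fst.mul_const A).mul measurable_snd).aemeasurable

/-- `Measure.map_apply`, `Measure.prod_apply_symm` -/
theorem PA_apply [IsProbabilityMeasure ν] (hρ : 1 ≤ ρ) (A : M.G) {S : Set M.G} (hS : MeasurableSet S) :
    PA M ν ρ A S = ∫⁻ z, ν {p | p * A * z ∈ S} ∂M.lwC ρ := by
  have := M.isProbabilityMeasure_lwC hρ
  have hm : Measurable fun x : M.G × M.G => x.1 * A * x.2 := (measurable_fst.mul_const A).mul measurable_snd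
  rw [PA, Measure.map_apply hm hS, Measure.prod_apply_symm (hm hS)]
  rfl

theorem lwC_ae (hρ : 1 ≤ ρ) : ∀ᵐ z ∂M.lwC ρ, z ∈ M.ballCR ρ := by
  exact ae_cond_mem (M.isCompact_ballCR ρ).measurableSet

/-- domination inside `C`: `cond`, bi-invariance of `hC` (`hC_mul_left`, `hC_mul_right`) -/
theorem lwC_dom (hρ : 1 ≤ ρ) {Θ : Set M.G} (hΘ : IsCompact Θ) {D : ℝ≥0∞} (hD : M.hC Θ ≤ D * M.hC (M.ballCR ρ)) {b c : M.G} (hb : b ∈ M.C)
    (hc : c ∈ M.C) (hsub : ∀ z ∈ M.ballCR ρ, b * z * c ∈ Θ) {F : M.G → ℝ≥0∞} (hF : Measurable F) :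
    ∫⁻ z, F (b * z * c) ∂M.lwC ρ ≤ D * ∫⁻ x, F x ∂(M.hC[|Θ]) := by
  have hB := (M.isCompact_ballCR ρ).measurableSet
  have hp : MeasurePreserving (fun z => b * z * c) M.hC M.hC := (M.hC_mul_right hc).comp (M.hC_mul_left hb)
  have h1 : ∫⁻ z in M.ballCR ρ, F (b * z * c) ∂M.hC ≤ ∫⁻ x in Θ, F x ∂M.hC := by
    rw [← lintegral_indicator hΘ.measurableSet, ← hp.lintegral_comp (hF.indicator hΘ.measurableSet),
      ← lintegral_indicator hB]
    refine lintegral_mono fun z => ?_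
    by_cases hz : z ∈ M.ballCR ρ
    · rw [indicator_of_mem hz, indicator_of_mem (hsub z hz)]
    · rw [indicator_of_notMem hz]; exact zero_le
  rw [Model.lwC, ProbabilityTheory.cond, ProbabilityTheory.cond, lintegral_smul_measure, lintegral_smul_measure, smul_eq_mul, smul_eq_mul, ← mul_assoc]
  by_cases h0 : M.hC Θ = 0
  · rw [setLIntegral_measure_zero _ _ h0] at h1
    rw [le_zero_iff.1 h1, mul_zero]
    exact zero_le
  refine mul_le_mul' ?_ h1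
  calc (M.hC (M.ballCR ρ))⁻¹ = (M.hC (M.ballCR ρ))⁻¹ * M.hC Θ * (M.hC Θ)⁻¹ := by
        rw [mul_assoc, ENNReal.mul_inv_cancel h0 hΘ.measure_lt_top.ne, mul_one]
    _ ≤ (M.hC (M.ballCR ρ))⁻¹ * (D * M.hC (M.ballCR ρ)) * (M.hC Θ)⁻¹ := by gcongr
    _ = D * (M.hC Θ)⁻¹ := by
        rw [mul_left_comm, ENNReal.inv_mul_cancel (M.hC_ballCR_pos hρ).ne' (M.isCompact_ballCR ρ).measure_lt_top.ne,
          mul_one]

/-! ### task Basic-b -/

/-- `measurable_measure_prodMk_right`-type lemma -/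
theorem measurable_om [IsProbabilityMeasure ν] (hφ : Measurable φ) (hL : Sel M Lp) (ζ : ℝ) (A A' : M.G) :
    Measurable fun x : M.G × M.G => ν {p | ¬Ok M φ Lp ζ (p * A * x.1) (p * A' * x.2)} := by
  have h1 : Measurable fun y : M.G × (M.G × M.G) => (y.1 * A * y.2.1, y.1 * A' * y.2.2) := by fun_prop
  exact measurable_measure_prodMk_right (μ := ν) (h1 (measurableSet_Ok hφ hL ζ).compl)

theorem om_mono (hζ : ζ ≤ ζ') (A A' : M.G) : om M φ Lp ν ρ ζ' A A' ≤ om M φ Lp ν ρ ζ A A' := by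
  exact lintegral_mono fun z => lintegral_mono fun z' => measure_mono fun p hp h1 => hp (h1.mono hζ)

/-- `lintegral_lintegral_swap`, `Ok.symm` -/
theorem om_symm [IsProbabilityMeasure ν] (hφ : Measurable φ) (hL : Sel M Lp) (hρ : 1 ≤ ρ) (ζ : ℝ) (A A' : M.G) :
    om M φ Lp ν ρ ζ A A' = om M φ Lp ν ρ ζ A' A := by
  have := M.isProbabilityMeasure_lwC hρ
  unfold om
  rw [lintegral_lintegral_swap (measurable_om hφ hL ζ A A').aemeasurable]
  refine lintegral_congr fun z => lintegral_congr fun z' => congrArg ν ?_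
  ext p
  exact not_congr ⟨Ok.symm, Ok.symm⟩

theorem bsb_sub (ζ ζ' : ℝ) (a b c : M.G → M.G) : ν {p | ¬Ok M φ Lp (ζ + ζ') (a p) (c p)} ≤
    ν {p | ¬Ok M φ Lp ζ (a p) (b p)} + ν {p | ¬Ok M φ Lp ζ' (b p) (c p)} := by
  refine (measure_mono fun p hp => ?_).trans (measure_union_le _ _)
  by_contra h1
  simp only [mem_union, mem_ofPred_eq, not_or, not_not] at h1
  exact hp (h1.1.trans h1.2)

theorem bsb_tri {X : Type*} [MeasurableSpace X] (μ : Measure X) [IsProbabilityMeasure μ] {F F₁ F₂ : X × X → ℝ≥0∞}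
    (h1 : Measurable F₁) (h2 : Measurable F₂) (hF : ∀ x y z, F (x, z) ≤ F₁ (x, y) + F₂ (y, z)) :
    ∫⁻ x, ∫⁻ z, F (x, z) ∂μ ∂μ ≤ ∫⁻ x, ∫⁻ y, F₁ (x, y) ∂μ ∂μ + ∫⁻ y, ∫⁻ z, F₂ (y, z) ∂μ ∂μ := by
  have m1 : Measurable fun x => ∫⁻ y, F₁ (x, y) ∂μ := h1.lintegral_prod_right'
  have h3 : ∀ x z, F (x, z) ≤ ∫⁻ y, F₁ (x, y) ∂μ + ∫⁻ y, F₂ (y, z) ∂μ := by
    intro x z
    have m2 : Measurable fun y => F₁ (x, y) := h1.comp measurable_prodMk_left
    rw [← lintegral_add_left m2]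
    calc F (x, z) = ∫⁻ y, F (x, z) ∂μ := by simp
      _ ≤ _ := lintegral_mono fun y => hF x y z
  calc ∫⁻ x, ∫⁻ z, F (x, z) ∂μ ∂μ ≤ ∫⁻ x, ∫⁻ z, (∫⁻ y, F₁ (x, y) ∂μ + ∫⁻ y, F₂ (y, z) ∂μ) ∂μ ∂μ :=
        lintegral_mono fun x => lintegral_mono fun z => h3 x z
    _ = ∫⁻ x, (∫⁻ y, F₁ (x, y) ∂μ + ∫⁻ z, ∫⁻ y, F₂ (y, z) ∂μ ∂μ) ∂μ := by
        refine lintegral_congr fun x => ?_
        rw [lintegral_add_left measurable_const]
        simp
    _ = ∫⁻ x, ∫⁻ y, F₁ (x, y) ∂μ ∂μ + ∫⁻ z, ∫⁻ y, F₂ (y, z) ∂μ ∂μ := by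
        rw [lintegral_add_left m1]
        simp
    _ = _ := by rw [lintegral_lintegral_swap (f := fun y z => F₂ (y, z)) h2.aemeasurable]

/-- for every `z'`: `ν {¬Ok (z, z'')} ≤ ν {¬Ok (z, z')} + ν {¬Ok (z', z'')}`; average over `z'` -/
theorem om_tri [IsProbabilityMeasure ν] (hφ : Measurable φ) (hL : Sel M Lp) (hρ : 1 ≤ ρ) (ζ ζ' : ℝ) (A A' A'' : M.G) :
    om M φ Lp ν ρ (ζ + ζ') A A'' ≤ om M φ Lp ν ρ ζ A A' + om M φ Lp ν ρ ζ' A' A'' := by
  have := M.isProbabilityMeasure_lwC hρ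
  exact bsb_tri (M.lwC ρ) (F := fun x => ν {p | ¬Ok M φ Lp (ζ + ζ') (p * A * x.1) (p * A'' * x.2)})
    (measurable_om hφ hL ζ A A') (measurable_om hφ hL ζ' A' A'')
    fun x y z => bsb_sub ζ ζ' (fun p => p * A * x) (fun p => p * A' * y) (fun p => p * A'' * z)

/-- the same with the middle point `p * A' * z` -/
theorem om_le_same [IsProbabilityMeasure ν] (hφ : Measurable φ) (hL : Sel M Lp) (hρ : 1 ≤ ρ) (ζ ζ' : ℝ) (A A' : M.G) :
    om M φ Lp ν ρ (ζ + ζ') A A' ≤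
      ∫⁻ z, ν {p | ¬Ok M φ Lp ζ (p * A * z) (p * A' * z)} ∂M.lwC ρ + om M φ Lp ν ρ ζ' A' A' := by
  have := M.isProbabilityMeasure_lwC hρ
  have m1 : Measurable fun z : M.G => ν {p | ¬Ok M φ Lp ζ (p * A * z) (p * A' * z)} :=
    (measurable_om hφ hL ζ A A').comp (measurable_id.prodMk measurable_id)
  unfold om
  rw [← lintegral_add_left m1]
  refine lintegral_mono fun z => ?_
  calc ∫⁻ z', ν {p | ¬Ok M φ Lp (ζ + ζ') (p * A * z) (p * A' * z')} ∂M.lwC ρ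
      ≤ ∫⁻ z', (ν {p | ¬Ok M φ Lp ζ (p * A * z) (p * A' * z)} + ν {p | ¬Ok M φ Lp ζ' (p * A' * z) (p * A' * z')}) ∂M.lwC ρ :=
        lintegral_mono fun z' => bsb_sub ζ ζ' (fun p => p * A * z) (fun p => p * A' * z) (fun p => p * A' * z')
    _ = _ := by
        rw [lintegral_add_left measurable_const]
        simp

/-- C-link for `om`.  `p * (A * c) * z' = (p * A * z) * (z⁻¹ * c * z')`; for fixed `z ∈ ballCR ρ` use `lwC_dom` with `Θ = ballCR (4 ρ)`, `b = z⁻¹ * c`, `c = 1`,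
`hC_doubling 4`; swap the integrals; `PA_apply`. -/
theorem omC (M : Model h k) : ∃ D : ℝ, 1 ≤ D ∧ ∀ (φ : M.G → M.G) (Lp : M.G → Mat k) (ν : Measure M.G) (ρ ζ : ℝ) (δ : ℝ≥0∞) (A c : M.G), Measurable φ →
    Sel M Lp → IsProbabilityMeasure ν → 1 ≤ ρ → c ∈ M.ballCR ρ →
    (∀ g ∈ M.ballCR (4 * ρ), PA M ν ρ A {q | ¬Ok M φ Lp ζ q (q * g)} ≤ δ) →
      om M φ Lp ν ρ ζ A (A * c) ≤ ENNReal.ofReal D * δ := by
  obtain ⟨D, hD1, hD⟩ := M.hC_doubling 4
  refine ⟨D, hD1, fun φ Lp ν ρ ζ δ A c hφ hL hν hρ hc hδ => ?_⟩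
  have := M.isProbabilityMeasure_lwC hρ
  have hρ4 : 1 ≤ 4 * ρ := by linarith
  have := M.isProbabilityMeasure_lwC hρ4
  have mH : Measurable fun x : M.G × M.G => ν {p | ¬Ok M φ Lp ζ (p * A * x.1) (p * A * x.1 * x.2)} := by
    have h1 : Measurable fun x : M.G × M.G => (x.1, x.1 * x.2) := by fun_prop
    have h2 := (measurable_om (ν := ν) hφ hL ζ A A).comp h1
    simpa only [Function.comp_def, mul_assoc] using h2
  have h1 : ∀ z ∈ M.ballCR ρ, ∫⁻ z', ν {p | ¬Ok M φ Lp ζ (p * A * z) (p * (A * c) * z')} ∂M.lwC ρ ≤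
      ENNReal.ofReal D * ∫⁻ g, ν {p | ¬Ok M φ Lp ζ (p * A * z) (p * A * z * g)} ∂M.lwC (4 * ρ) := by
    intro z hz
    have h2 := lwC_dom hρ (M.isCompact_ballCR (4 * ρ)) (hD ρ hρ) (b := z⁻¹ * c) (c := 1)
      (M.C.mul_mem (M.C.inv_mem hz.1) hc.1) M.C.one_mem (fun z' hz' => by
        rw [mul_one]
        exact M.ballCR_mono (by linarith) (M.mul_mem_ballCR (M.mul_mem_ballCR (M.inv_mem_ballCR hz) hc) hz'))
      (F := fun g => ν {p | ¬Ok M φ Lp ζ (p * A * z) (p * A * z * g)}) (mH.comp measurable_prodMk_left)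
    refine le_trans (le_of_eq (lintegral_congr fun z' => ?_)) h2
    have h3 : ∀ p : M.G, p * A * z * (z⁻¹ * c * z' * 1) = p * (A * c) * z' := fun p => by group
    simp only [h3]
  calc om M φ Lp ν ρ ζ A (A * c)
      ≤ ∫⁻ z, ENNReal.ofReal D * ∫⁻ g, ν {p | ¬Ok M φ Lp ζ (p * A * z) (p * A * z * g)} ∂M.lwC (4 * ρ) ∂M.lwC ρ :=
        lintegral_mono_ae ((lwC_ae hρ).mono h1)
    _ = ENNReal.ofReal D * ∫⁻ g, ∫⁻ z, ν {p | ¬Ok M φ Lp ζ (p * A * z) (p * A * z * g)} ∂M.lwC ρ ∂M.lwC (4 * ρ) := by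
        rw [lintegral_const_mul' _ _ ENNReal.ofReal_ne_top, lintegral_lintegral_swap mH.aemeasurable]
    _ ≤ ENNReal.ofReal D * ∫⁻ g, δ ∂M.lwC (4 * ρ) := by
        refine mul_le_mul_right (lintegral_mono_ae ((lwC_ae hρ4).mono fun g hg => ?_)) _
        have h2 : Measurable fun q : M.G => (q, q * g) := by fun_prop
        have h3 : MeasurableSet {q | ¬Ok M φ Lp ζ q (q * g)} := h2 (measurableSet_Ok hφ hL ζ).compl
        have h4 := hδ g hg
        rw [PA_apply hρ A h3] at h4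
        exact h4
    _ = _ := by simp

end Crest.Agent.R182.PUR
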