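import Crest.Agent.R182.PUR.Pat
import Crest.Agent.R182.PUR.Basic

/-! R182/PUR/Clink (owner helper57): the linear part does not change along `C`. -/

set_option autoImplicit false
set_option linter.unusedVariables false
set_option linter.unusedSectionVars false
open Set Filter Topology MeasureTheory ProbabilityTheory Matrix Crest.GroupTheory
open scoped Pointwise commutatorElement ENNReal

noncomputable section
namespace Crest.Agent.R182.PUR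
variable {h k : ℕ} {M : Model h k}

/-! ### task Clink-a -/

theorem cla_lower {𝒟 : Finset M.G} (h𝒟 : M.Dirs 𝒟) : ∃ c₀ : ℝ, 0 < c₀ ∧ ∀ L ∈ M.W1, ∀ d ∈ 𝒟, ∀ j, M.wt j ≠ 0 →
    c₀ ≤ |M.wt j ⬝ᵥ L *ᵥ M.chi d| := by
  have h1 : ∀ᶠ c₀ in 𝓝[>] (0 : ℝ), ∀ L ∈ M.W1, ∀ d ∈ 𝒟, ∀ j, M.wt j ≠ 0 → c₀ ≤ |M.wt j ⬝ᵥ L *ᵥ M.chi d| := by
    refine (M.finite_W1.eventually_all).2 fun L hL => (Finset.eventually_all 𝒟).2 fun d hd =>
      eventually_all.2 fun j => ?_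
    by_cases hj : M.wt j = 0
    · exact Eventually.of_forall fun _ h => absurd hj h
    · have : ∀ᶠ c₀ in 𝓝 (0 : ℝ), c₀ < |M.wt j ⬝ᵥ L *ᵥ M.chi d| := gt_mem_nhds (abs_pos.2 (h𝒟.reg d hd L hL j hj))
      exact (this.filter_mono nhdsWithin_le_nhds).mono fun _ h _ => h.le
  obtain ⟨c₀, h2, h3⟩ := (h1.and self_mem_nhdsWithin).exists
  exact ⟨c₀, h3, h2⟩

theorem cla_good {φ : M.G → M.G} {Lp : M.G → Mat k} {e B₀ : ℝ} {g q : M.G} {β : Fin k → ℝ} (hβ : nm β ≤ B₀)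
    (hq : q ∉ Bad M φ Lp e g) :
    β ⬝ᵥ M.chi (φ (q * g)) - β ⬝ᵥ M.chi (φ q) ≤ β ⬝ᵥ Lp q *ᵥ M.chi g + B₀ * k * e := by
  have h1 : ‖M.cc φ g q - Lp q *ᵥ M.chi g‖ ≤ e := not_lt.1 hq
  have h2 := (le_abs_self _).trans (abs_dot_le β (M.cc φ g q - Lp q *ᵥ M.chi g))
  have h3 : nm β * (k * ‖M.cc φ g q - Lp q *ᵥ M.chi g‖) ≤ B₀ * (k * e) :=
    mul_le_mul hβ (mul_le_mul_of_nonneg_left h1 (Nat.cast_nonneg k)) (by positivity) ((nm_nonneg β).trans hβ)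
  rw [Model.cc, dotProduct_sub, dotProduct_sub] at h2
  rw [Model.cc] at h3
  linarith

theorem cla_lip {K Λ₀ B₀ : ℝ} (f : M.QP K) {β : Fin k → ℝ} (hβ : nm β ≤ B₀) {x y : M.G} (hxy : x⁻¹ * y ∈ M.ballCR Λ₀) (q : M.G) :
    |β ⬝ᵥ M.chi (f.φ (q * y)) - β ⬝ᵥ M.chi (f.φ (q * x))| ≤ B₀ * k * (|K| * Λ₀ + |K|) := by
  have h1 := f.lφ.norm_cc (x⁻¹ * y) (q * x)
  have h2 := abs_dot_le β (M.cc f.φ (x⁻¹ * y) (q * x))
  have hK : 0 ≤ K := zero_le_one.trans f.one_le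
  have h3 : (M.len (x⁻¹ * y) : ℝ) ≤ Λ₀ := M.ballCR_subset_ballR _ hxy
  have h4 : ‖M.cc f.φ (x⁻¹ * y) (q * x)‖ ≤ |K| * Λ₀ + |K| := by
    rw [abs_of_nonneg hK]
    exact h1.trans (add_le_add (mul_le_mul_of_nonneg_left h3 hK) le_rfl)
  have h5 : nm β * (k * ‖M.cc f.φ (x⁻¹ * y) (q * x)‖) ≤ B₀ * (k * (|K| * Λ₀ + |K|)) :=
    mul_le_mul hβ (mul_le_mul_of_nonneg_left h4 (Nat.cast_nonneg k)) (by positivity) ((nm_nonneg β).trans hβ)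
  have e : q * x * (x⁻¹ * y) = q * y := by group
  have e2 : β ⬝ᵥ M.cc f.φ (x⁻¹ * y) (q * x) = β ⬝ᵥ M.chi (f.φ (q * y)) - β ⬝ᵥ M.chi (f.φ (q * x)) := by
    rw [Model.cc, e, dotProduct_sub]
  rw [← e2, mul_assoc]
  exact h2.trans h5

theorem cla_ev1 {c B δ : ℝ} (hc : 0 < c) (hδ : 0 < δ) : ∀ᶠ m : ℕ in atTop, B * Real.exp (-(c * m)) ≤ δ := by
  have h1 : Tendsto (fun m : ℕ => B * Real.exp (-(c * m))) atTop (𝓝 (B * 0)) :=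
    (Real.tendsto_exp_neg_atTop_nhds_zero.comp (tendsto_natCast_atTop_atTop.const_mul_atTop hc)).const_mul B
  rw [mul_zero] at h1
  exact (h1.eventually (gt_mem_nhds hδ)).mono fun _ h => h.le

theorem cla_ev2 {c B δ : ℝ} (hc : 0 < c) (hδ : 0 < δ) : ∀ᶠ m : ℕ in atTop, B * m * Real.exp (-(c * m)) ≤ δ := by
  have h1 : Tendsto (fun m : ℕ => B / c * ((c * m) ^ 1 * Real.exp (-(c * m)))) atTop (𝓝 (B / c * 0)) :=
    ((Real.tendsto_pow_mul_exp_neg_atTop_nhds_zero 1).comp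
      (tendsto_natCast_atTop_atTop.const_mul_atTop hc)).const_mul (B / c)
  rw [mul_zero] at h1
  refine (h1.eventually (gt_mem_nhds hδ)).mono fun m h => le_trans (le_of_eq ?_) h.le
  field_simp

theorem pat2 (K : ℝ) {𝒟 : Finset M.G} (h𝒟 : M.Dirs 𝒟) : ∃ Λ₀ S ε₀ : ℝ, 1 ≤ Λ₀ ∧ 1 ≤ S ∧ 0 < ε₀ ∧ (∀ d ∈ 𝒟, d ∈ M.ballCR Λ₀) ∧
    ∀ δ : ℝ, 0 < δ → ∃ (δ₁ : ℝ) (n₁ : ℕ), 0 < δ₁ ∧ ∀ n ≥ n₁, ∃ ℓ₁ : ℕ, ∀ ℓ ≥ ℓ₁, ∀ (f : M.QP K) (Lp : M.G → Mat k) (P : Measure M.G) (η₁ : ℝ),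
      Sel M Lp → 0 ≤ η₁ → η₁ * ℓ ≤ δ₁ → Law M f.φ Lp n Λ₀ ε₀ δ₁ (20 * Λ₀ * ℓ) η₁ P → ∀ d ∈ 𝒟, ∀ c ∈ M.ballCR (4 * Λ₀ * ℓ),
      ∀ u, M.WrdC u → S * u.length ≤ ℓ → ∀ s : ℕ, 2 * ℓ ≤ s → s ≤ 4 * ℓ →
        P {q | ∃ β ∈ M.R1, 0 < β ⬝ᵥ Lp (q * c) *ᵥ M.chi d ∧ β ⬝ᵥ Lp (q * (c * d ^ s * u.prod * d ^ s)) *ᵥ M.chi d < 0} ≤
          ENNReal.ofReal δ := by
  obtain ⟨c₀, hc₀, hlow⟩ := cla_lower h𝒟
  obtain ⟨Λ₀, hΛ, hd𝒟⟩ : ∃ Λ₀ : ℝ, 1 ≤ Λ₀ ∧ ∀ d ∈ 𝒟, d ∈ M.ballCR Λ₀ := by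
    have h0 : ∀ d ∈ 𝒟, (0 : ℝ) ≤ M.lenC d := fun d _ => Nat.cast_nonneg _
    refine ⟨1 + ∑ d ∈ 𝒟, (M.lenC d : ℝ), le_add_of_nonneg_right (Finset.sum_nonneg h0), fun d hd => ⟨h𝒟.mem d hd, ?_⟩⟩
    have := Finset.single_le_sum h0 hd
    linarith
  obtain ⟨B₀, hB₀, hB⟩ : ∃ B₀ : ℝ, 1 ≤ B₀ ∧ ∀ j, nm (M.wt j) ≤ B₀ := by
    have h0 : ∀ j ∈ Finset.univ, 0 ≤ nm (M.wt j) := fun j _ => nm_nonneg _
    refine ⟨1 + ∑ j, nm (M.wt j), le_add_of_nonneg_right (Finset.sum_nonneg h0), fun j => ?_⟩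
    have := Finset.single_le_sum h0 (Finset.mem_univ j)
    linarith
  obtain ⟨a, ha0, ha1, ha4⟩ : ∃ a : ℝ, 0 < a ∧ a ≤ 1 ∧ 4 * a ≤ c₀ :=
    ⟨min (c₀ / 4) 1, lt_min (by positivity) one_pos, min_le_right _ _, by linarith [min_le_left (c₀ / 4) 1]⟩
  have hk : (0 : ℝ) ≤ k := Nat.cast_nonneg k
  obtain ⟨ε₀, hε₀, hε⟩ : ∃ ε₀ : ℝ, 0 < ε₀ ∧ B₀ * k * ε₀ ≤ c₀ / 2 := by
    refine ⟨c₀ / (2 * (B₀ * k + 1)), by positivity, ?_⟩
    rw [← mul_div_assoc, div_le_div_iff₀ (by positivity) two_pos]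
    nlinarith
  obtain ⟨C, hC0, hC⟩ : ∃ C : ℝ, 0 < C ∧ B₀ * k * (|K| * Λ₀ + |K|) ≤ C :=
    ⟨B₀ * k * (|K| * Λ₀ + |K|) + 1, by positivity, by linarith⟩
  obtain ⟨c₂, hc₂, hc₂1, hc₂C⟩ : ∃ c₂ : ℝ, 0 < c₂ ∧ c₂ ≤ 1 ∧ c₂ * C ≤ c₀ / 4 := by
    refine ⟨min (c₀ / (4 * C)) 1, lt_min (by positivity) one_pos, min_le_right _ _, ?_⟩
    have := min_le_left (c₀ / (4 * C)) 1
    rw [le_div_iff₀ (by positivity)] at this
    linarith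
  obtain ⟨c', B, ℓ₀, hc', hB1, hpat⟩ := pat (M := M) K Λ₀ a ha0
  have hS0 : 0 ≤ B₀ * (1 + Λ₀) / (2 * a) := by positivity
  refine ⟨Λ₀, B₀ * (1 + Λ₀) / (2 * a) + 1, ε₀, hΛ, by linarith, hε₀, hd𝒟, fun δ hδ => ?_⟩
  have hfl : Tendsto (fun n : ℕ => ⌊c₂ * n⌋₊) atTop atTop :=
    tendsto_nat_floor_atTop.comp (tendsto_natCast_atTop_atTop.const_mul_atTop hc₂)
  obtain ⟨n₁, hn₁⟩ := eventually_atTop.1 ((hfl.eventually ((cla_ev1 (B := B) hc' (show 0 < δ / 4 by positivity)).and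
    (eventually_ge_atTop ℓ₀))).and (eventually_ge_atTop 1))
  refine ⟨δ / (100 * B), n₁, by positivity, fun n hn => ?_⟩
  obtain ⟨⟨hm1, hm2⟩, hn1⟩ := hn₁ n hn
  obtain ⟨ℓ₁, hℓ₁⟩ := eventually_atTop.1 ((cla_ev2 (B := 12 * B) hc' (show 0 < δ / 4 by positivity)).and
    (eventually_ge_atTop n))
  refine ⟨ℓ₁, fun ℓ hℓ f Lp P η₁ hSel hη hηℓ hLaw d hd c hc u hu huℓ s hs1 hs2 => ?_⟩
  obtain ⟨hl1, hnℓ⟩ := hℓ₁ ℓ hℓ
  set m := ⌊c₂ * n⌋₊ with hm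
  have hn0 : (1 : ℝ) ≤ n := by exact_mod_cast hn1
  have hmn : (m : ℝ) ≤ c₂ * n := Nat.floor_le (by positivity)
  have hnℓ' : (n : ℝ) ≤ ℓ := by exact_mod_cast hnℓ
  have hmℓ : m ≤ ℓ := by
    have : (m : ℝ) ≤ ℓ := by nlinarith
    exact_mod_cast this
  have hu0 : (0 : ℝ) ≤ u.length := Nat.cast_nonneg _
  have huℓ' : u.length ≤ ℓ := by
    have : (u.length : ℝ) ≤ ℓ := by nlinarith
    exact_mod_cast this
  have hdΛ := hd𝒟 d hd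
  have hdn : d ^ n ∈ M.ballCR (Λ₀ * n) := by rw [mul_comm]; exact M.pow_mem_ballCR hdΛ n
  have hc1 : c * (d ^ n)⁻¹ ∈ M.ballCR (4 * Λ₀ * ℓ + Λ₀ * n) := M.mul_mem_ballCR hc (M.inv_mem_ballCR hdn)
  set γ := hop M (c * (d ^ n)⁻¹) d u (n + s) with hγ
  set N := n + s + u.length + (n + s) with hN
  have hN11 : (N : ℝ) ≤ 11 * ℓ := by
    have : N ≤ 11 * ℓ := by omega
    exact_mod_cast this
  have hpth : Pth M Λ₀ a γ N ℓ := by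
    refine pth_hop hΛ _ hdΛ hu (fun j hj => ?_) hB (by omega) ?_
    · have := hlow 1 M.one_mem_W1 d hd j hj
      rw [one_mulVec] at this
      linarith
    · have h1 : B₀ * (1 + Λ₀) / (2 * a) * u.length ≤ ℓ := by nlinarith
      rw [div_mul_eq_mul_div, div_le_iff₀ (by positivity)] at h1
      linarith
  have hℓ0 : (0 : ℝ) ≤ ℓ := Nat.cast_nonneg _
  have hΛℓ : 0 ≤ Λ₀ * ℓ := by positivity
  have hγm : ∀ i ≤ N, γ i ∈ M.ballCR (20 * Λ₀ * ℓ) := by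
    intro i hi
    refine M.ballCR_mono ?_ (hop_mem hΛ hc1 hdΛ hu (n + s) i)
    have hi' : (i : ℝ) ≤ N := by exact_mod_cast hi
    have h1 : Λ₀ * n ≤ Λ₀ * ℓ := mul_le_mul_of_nonneg_left hnℓ' (by linarith)
    have h2 : Λ₀ * i ≤ Λ₀ * (11 * ℓ) := mul_le_mul_of_nonneg_left (hi'.trans hN11) (by linarith)
    linarith
  have hinv : ∀ i ≤ N, Inv (P.map (· * γ i)) (M.exp '' M.Gv (a * ℓ)) η₁ := fun i hi =>
    (hLaw.inv _ (hγm i hi)).mono (image_mono (M.Gv_mono (by nlinarith))) le_rfl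
  have hT := hpat f P η₁ γ N ℓ m hLaw.prob hη hm2 hmℓ hpth hinv
  have g0 : γ 0 = c * (d ^ n)⁻¹ := by rw [hγ, hop_left _ _ _ (Nat.zero_le _), pow_zero, mul_one]
  have gn : γ n = c := by rw [hγ, hop_left _ _ _ (Nat.le_add_right n s), inv_mul_cancel_right]
  have g2 : γ (N - n) = c * d ^ s * u.prod * d ^ s := by
    have : N - n = n + s + u.length + s := by omega
    rw [this, hγ, hop_right _ _ _ (Nat.le_add_left s n), pow_add]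
    group
  have gN : γ N = c * d ^ s * u.prod * d ^ s * d ^ n := by
    rw [hγ, hN, hop_right _ _ _ le_rfl, pow_add]
    group
  have hb1 := hLaw.gd c (gn ▸ hγm n (by omega)) (d ^ n)⁻¹ (M.ballCR_subset_ballR _ (M.inv_mem_ballCR hdn))
  have hb2 := hLaw.gd _ (g2 ▸ hγm (N - n) (by omega)) (d ^ n) (M.ballCR_subset_ballR _ hdn)
  have hsub : {q | ∃ β ∈ M.R1, 0 < β ⬝ᵥ Lp (q * c) *ᵥ M.chi d ∧
      β ⬝ᵥ Lp (q * (c * d ^ s * u.prod * d ^ s)) *ᵥ M.chi d < 0} ⊆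
      ({q | q * c ∈ Bad M f.φ Lp (ε₀ * n) (d ^ n)⁻¹} ∪
        {q | q * (c * d ^ s * u.prod * d ^ s) ∈ Bad M f.φ Lp (ε₀ * n) (d ^ n)}) ∪
      {q | ∃ β ∈ M.R1, ∃ i, m ≤ i ∧ i + m ≤ N ∧ ∀ j ≤ N, ht M f.φ β γ q j ≤ ht M f.φ β γ q i} := by
    rintro q ⟨β, hβ, h1, h2⟩
    by_cases q1 : q * c ∈ Bad M f.φ Lp (ε₀ * n) (d ^ n)⁻¹
    · exact Or.inl (Or.inl q1)
    by_cases q2 : q * (c * d ^ s * u.prod * d ^ s) ∈ Bad M f.φ Lp (ε₀ * n) (d ^ n)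
    · exact Or.inl (Or.inr q2)
    refine Or.inr ⟨β, hβ, ?_⟩
    obtain ⟨hβ0, j, -, rfl⟩ := hβ
    have l1 := hlow _ (hSel.1 (q * c)) d hd j hβ0
    have l2 := hlow _ (hSel.1 (q * (c * d ^ s * u.prod * d ^ s))) d hd j hβ0
    rw [abs_of_pos h1] at l1
    rw [abs_of_neg h2] at l2
    have k1 := cla_good (hB j) q1
    have k2 := cla_good (hB j) q2
    rw [M.chi_inv, M.chi_pow, mulVec_neg, mulVec_smul, dotProduct_neg, dotProduct_smul, smul_eq_mul] at k1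
    rw [M.chi_pow, mulVec_smul, dotProduct_smul, smul_eq_mul] at k2
    have k3 : B₀ * k * (ε₀ * n) ≤ c₀ / 2 * n := by
      rw [← mul_assoc]; exact mul_le_mul_of_nonneg_right hε (by linarith)
    have k4 := mul_le_mul_of_nonneg_left l1 (show (0 : ℝ) ≤ n by linarith)
    have k5 := mul_le_mul_of_nonneg_left l2 (show (0 : ℝ) ≤ n by linarith)
    refine top_of (n := n) (e := c₀ / 2 * n) hC0.le (fun i hi => ?_) (by omega) ?_ ?_ ?_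
    · exact (cla_lip f (hB j) (hpth.step i hi) q).trans hC
    · unfold ht
      rw [g0, gn, ← mul_assoc]
      linarith
    · unfold ht
      rw [gN, g2, ← mul_assoc q _ (d ^ n)]
      linarith
    · have : (m : ℝ) * C ≤ c₂ * n * C := mul_le_mul_of_nonneg_right hmn hC0.le
      have : (n : ℝ) * (c₂ * C) ≤ n * (c₀ / 4) := mul_le_mul_of_nonneg_left hc₂C (by linarith)
      nlinarith
  refine (measure_mono hsub).trans ((measure_union_le _ _).trans ((add_le_add ((measure_union_le _ _).trans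
    (add_le_add hb1 hb2)) hT).trans ?_))
  have hδ₁ : 0 ≤ δ / (100 * B) := by positivity
  rw [← ENNReal.ofReal_add hδ₁ hδ₁, ← ENNReal.ofReal_add (by positivity) (by positivity)]
  refine ENNReal.ofReal_le_ofReal ?_
  have e1 : B * (δ / (100 * B)) = δ / 100 := by field_simp
  have e2 : δ / (100 * B) ≤ δ / 100 := by nlinarith
  have hN12 : (N : ℝ) + 1 ≤ 12 * ℓ := by linarith
  have e3 : B * (((N : ℝ) + 1) * (Real.exp (-(c' * ℓ)) + η₁)) ≤ B * (12 * ℓ * (Real.exp (-(c' * ℓ)) + η₁)) :=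
    mul_le_mul_of_nonneg_left (mul_le_mul_of_nonneg_right hN12 (by positivity)) (by linarith)
  have e4 : B * (η₁ * ℓ) ≤ B * (δ / (100 * B)) := mul_le_mul_of_nonneg_left hηℓ (by linarith)
  nlinarith

/-! ### task Clink-b -/

theorem clinkb_pos {𝒟 : Finset M.G} (h𝒟 : M.Dirs 𝒟) {d : M.G} (hd : d ∈ 𝒟) {L L' : Mat k} (hL : L ∈ M.W1) (hL' : L' ∈ M.W1)
    (hn : ¬∃ β ∈ M.R1, 0 < β ⬝ᵥ L *ᵥ M.chi d ∧ β ⬝ᵥ L' *ᵥ M.chi d < 0) :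
    ∀ β ∈ M.R1, (0 < β ⬝ᵥ L *ᵥ M.chi d ↔ 0 < β ⬝ᵥ L' *ᵥ M.chi d) := by
  have h1 : ∀ β ∈ M.R1, 0 < β ⬝ᵥ L *ᵥ M.chi d → 0 < β ⬝ᵥ L' *ᵥ M.chi d := by
    intro β hβ h0
    obtain ⟨hβ0, j, hj, rfl⟩ := hβ
    rcases lt_or_gt_of_ne (h𝒟.reg d hd L' hL' j hβ0) with h2 | h2
    · exact absurd ⟨_, ⟨hβ0, j, hj, rfl⟩, h0, h2⟩ hn
    · exact h2
  exact fun β hβ => ⟨h1 β hβ, M.pos_eq_of_subset hL hL' h1 β hβ⟩

/-- C-link.  `exists_dirs`; `ℓ = ⌈4 S ρ⌉₊ ≤ 5 S ρ`, `u` a word for `g` (`exists_wrdC`).  For `d ∈ 𝒟` apply `pat2` to `(c, s, u) = ((d ^ (4 ℓ))⁻¹, 2 ℓ, [])`, `(g, 2 ℓ, [])`,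
`((d ^ (4 ℓ))⁻¹, 4 ℓ, u)`.  Outside these events the positive sets (in `R1`; `β ⬝ L chi d ≠ 0` by `Dirs.reg`) at `q d^(-4ℓ)`, `q`, `q g`, `q g d^(4ℓ)` agree
(`pos_eq_of_subset`); `Dirs.eq_of_pattern'`; union bound over `3 * card 𝒟` events; `Law.mono`. -/
theorem clink (M : Model h k) (K : ℝ) : ∃ Λ₀ S ε₀ : ℝ, 1 ≤ Λ₀ ∧ 8 ≤ S ∧ 0 < ε₀ ∧
    ∀ δ : ℝ, 0 < δ → ∃ (δ₁ : ℝ) (n₁ : ℕ), 0 < δ₁ ∧ ∀ n ≥ n₁, ∃ ρ₁ : ℝ, ∀ ρ ≥ ρ₁, ∀ (f : M.QP K) (Lp : M.G → Mat k) (P : Measure M.G) (η₁ : ℝ),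
      Sel M Lp → 0 ≤ η₁ → η₁ * ρ ≤ δ₁ → Law M f.φ Lp n Λ₀ ε₀ δ₁ (S * ρ) η₁ P → ∀ g ∈ M.ballCR (4 * ρ),
        P {q | Lp q ≠ Lp (q * g)} ≤ ENNReal.ofReal δ := by
  obtain ⟨𝒟, h𝒟⟩ := M.exists_dirs
  obtain ⟨Λ₀, S, ε₀, hΛ, hS, hε, hd𝒟, H⟩ := pat2 K h𝒟
  refine ⟨Λ₀, 100 * Λ₀ * S, ε₀, hΛ, by nlinarith, hε, fun δ hδ => ?_⟩
  obtain ⟨δ₁, n₁, hδ₁, H⟩ := H (δ / (3 * (𝒟.card + 1))) (by positivity)
  refine ⟨δ₁ / (5 * S), n₁, by positivity, fun n hn => ?_⟩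
  obtain ⟨ℓ₁, H⟩ := H n hn
  refine ⟨max 1 ℓ₁, fun ρ hρ f Lp P η₁ hL hη hηρ hP g hg => ?_⟩
  have hρ1 : 1 ≤ ρ := (le_max_left _ _).trans hρ
  have hρ2 : (ℓ₁ : ℝ) ≤ ρ := (le_max_right _ _).trans hρ
  set ℓ : ℕ := ⌈4 * S * ρ⌉₊ with hℓ
  have hSρ : ρ ≤ S * ρ := by nlinarith
  have l1 : 4 * S * ρ ≤ ℓ := Nat.le_ceil _
  have l2 : (ℓ : ℝ) ≤ 5 * S * ρ := by
    have := Nat.ceil_lt_add_one (by positivity : 0 ≤ 4 * S * ρ)
    linarith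
  have l3 : ℓ₁ ≤ ℓ := by
    have : (ℓ₁ : ℝ) ≤ ℓ := by linarith
    exact_mod_cast this
  have l4 : η₁ * ℓ ≤ δ₁ := by
    have a1 := mul_le_mul_of_nonneg_left l2 hη
    have a2 := (le_div_iff₀ (by positivity : 0 < 5 * S)).1 hηρ
    linarith
  have l5 : δ₁ / (5 * S) ≤ δ₁ := div_le_self hδ₁.le (by linarith)
  have l6 : 20 * Λ₀ * ℓ ≤ 100 * Λ₀ * S * ρ := by nlinarith
  have H := H ℓ l3 f Lp P η₁ hL hη l4 (hP.mono le_rfl le_rfl l5 l6 le_rfl)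
  obtain ⟨u, hu, hul, hup⟩ := M.exists_wrdC hg.1
  have hnil : M.WrdC [] := fun x hx => absurd hx List.not_mem_nil
  have hg' : g ∈ M.ballCR (4 * Λ₀ * ℓ) := M.ballCR_mono (by nlinarith) hg
  have hu' : S * u.length ≤ ℓ := by
    have : (u.length : ℝ) ≤ 4 * ρ := hul ▸ hg.2
    nlinarith
  let E : M.G → M.G → M.G → Set M.G := fun d c c' =>
    {q | ∃ β ∈ M.R1, 0 < β ⬝ᵥ Lp (q * c) *ᵥ M.chi d ∧ β ⬝ᵥ Lp (q * c') *ᵥ M.chi d < 0}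
  have hE : ∀ d ∈ 𝒟, P (E d (d ^ (4 * ℓ))⁻¹ 1 ∪ E d g (g * d ^ (4 * ℓ)) ∪ E d (d ^ (4 * ℓ))⁻¹ (g * d ^ (4 * ℓ))) ≤
      ENNReal.ofReal (δ / (𝒟.card + 1)) := by
    intro d hd
    have hc : (d ^ (4 * ℓ))⁻¹ ∈ M.ballCR (4 * Λ₀ * ℓ) :=
      M.inv_mem_ballCR (M.ballCR_mono (by push_cast; linarith) (M.pow_mem_ballCR (hd𝒟 d hd) (4 * ℓ)))
    have e0 : d ^ (2 * ℓ) * d ^ (2 * ℓ) = d ^ (4 * ℓ) := by rw [← pow_add]; congr 1; ring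
    have a1 := H d hd _ hc [] hnil (by simp) (2 * ℓ) le_rfl (by omega)
    have a2 := H d hd _ hg' [] hnil (by simp) (2 * ℓ) le_rfl (by omega)
    have a3 := H d hd _ hc u hu hu' (4 * ℓ) (by omega) le_rfl
    have e1 : (d ^ (4 * ℓ))⁻¹ * d ^ (2 * ℓ) * ([] : List M.G).prod * d ^ (2 * ℓ) = 1 := by
      rw [List.prod_nil, mul_one, mul_assoc, e0, inv_mul_cancel]
    have e2 : g * d ^ (2 * ℓ) * ([] : List M.G).prod * d ^ (2 * ℓ) = g * d ^ (4 * ℓ) := by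
      rw [List.prod_nil, mul_one, mul_assoc, e0]
    have e3 : (d ^ (4 * ℓ))⁻¹ * d ^ (4 * ℓ) * u.prod * d ^ (4 * ℓ) = g * d ^ (4 * ℓ) := by
      rw [inv_mul_cancel, one_mul, hup]
    rw [e1] at a1
    rw [e2] at a2
    rw [e3] at a3
    refine ((measure_union_le _ _).trans (add_le_add ((measure_union_le _ _).trans (add_le_add a1 a2)) a3)).trans ?_
    rw [← ENNReal.ofReal_add (by positivity) (by positivity), ← ENNReal.ofReal_add (by positivity) (by positivity)]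
    refine ENNReal.ofReal_le_ofReal (le_of_eq ?_)
    field_simp
    ring
  have hsub : {q | Lp q ≠ Lp (q * g)} ⊆
      ⋃ d ∈ 𝒟, (E d (d ^ (4 * ℓ))⁻¹ 1 ∪ E d g (g * d ^ (4 * ℓ)) ∪ E d (d ^ (4 * ℓ))⁻¹ (g * d ^ (4 * ℓ))) := by
    intro q hq
    by_contra hn
    simp only [mem_iUnion, mem_union, not_exists, not_or] at hn
    refine hq (h𝒟.eq_of_pattern' (hL.1 _) (hL.1 _) fun d hd β hβ => ?_)
    obtain ⟨⟨b1, b2⟩, b3⟩ := hn d hd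
    have c1 := clinkb_pos h𝒟 hd (hL.1 _) (hL.1 _) b1 β hβ
    have c2 := clinkb_pos h𝒟 hd (hL.1 _) (hL.1 _) b2 β hβ
    have c3 := clinkb_pos h𝒟 hd (hL.1 _) (hL.1 _) b3 β hβ
    rw [mul_one] at c1
    exact c1.symm.trans (c3.trans c2.symm)
  refine (measure_mono hsub).trans ((measure_biUnion_finset_le _ _).trans ((Finset.sum_le_card_nsmul _ _ _ hE).trans ?_))
  rw [nsmul_eq_mul, ← ENNReal.ofReal_natCast, ← ENNReal.ofReal_mul (by positivity)]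
  refine ENNReal.ofReal_le_ofReal ?_
  rw [← mul_div_assoc, div_le_iff₀ (by positivity)]
  nlinarith

/-! ### task Clink-c -/

open Classical in
/-- Markov for the number of events -/
theorem markov_count {Ω : Type*} [MeasurableSpace Ω] (P : Measure Ω) (J : ℕ) {E : ℕ → Set Ω} (hE : ∀ j, MeasurableSet (E j)) {δ θ : ℝ}
    (hθ : 0 < θ) (hδ : ∀ j < J, P (E j) ≤ ENNReal.ofReal δ) :
    P {x | θ * J < ((Finset.range J).filter fun j => x ∈ E j).card} ≤ ENNReal.ofReal (δ / θ) := by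
  rcases Nat.eq_zero_or_pos J with rfl | hJ
  · simp
  have hJ' : (0 : ℝ) < J := Nat.cast_pos.2 hJ
  have hm : Measurable fun x => ∑ j ∈ Finset.range J, (E j).indicator (1 : Ω → ℝ≥0∞) x :=
    Finset.measurable_sum _ fun j _ => measurable_one.indicator (hE j)
  have h1 := mul_meas_ge_le_lintegral (μ := P) hm (ENNReal.ofReal (θ * J))
  rw [lintegral_finsetSum _ fun j _ => measurable_one.indicator (hE j)] at h1
  simp only [lintegral_indicator_one (hE _)] at h1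
  have h2 : ∑ j ∈ Finset.range J, P (E j) ≤ J * ENNReal.ofReal δ := by
    simpa using Finset.sum_le_card_nsmul _ _ _ fun j hj => hδ j (Finset.mem_range.1 hj)
  have h3 : {x | θ * J < ((Finset.range J).filter fun j => x ∈ E j).card} ⊆
      {x | ENNReal.ofReal (θ * J) ≤ ∑ j ∈ Finset.range J, (E j).indicator (1 : Ω → ℝ≥0∞) x} := by
    intro x hx
    have e : ∑ j ∈ Finset.range J, (E j).indicator (1 : Ω → ℝ≥0∞) x = (((Finset.range J).filter fun j => x ∈ E j).card : ℝ≥0∞) := by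
      rw [Finset.card_filter]
      push_cast
      refine Finset.sum_congr rfl fun j _ => ?_
      by_cases h : x ∈ E j <;> simp [h]
    rw [mem_ofPred_eq, e, ← ENNReal.ofReal_natCast]
    exact ENNReal.ofReal_le_ofReal (le_of_lt hx)
  have h4 := ((mul_le_mul_right (measure_mono h3) _).trans h1).trans h2
  rw [ENNReal.ofReal_mul hθ.le, ENNReal.ofReal_natCast, mul_comm (ENNReal.ofReal θ), mul_assoc,
    ENNReal.mul_le_mul_iff_right (by exact_mod_cast hJ.ne') (ENNReal.natCast_ne_top J)] at h4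
  rw [ENNReal.ofReal_div_of_pos hθ, ENNReal.le_div_iff_mul_le (Or.inl (ENNReal.ofReal_pos.2 hθ).ne') (Or.inl ENNReal.ofReal_ne_top), mul_comm]
  exact h4

theorem clc_tele {W : Type*} [SeminormedAddCommGroup W] (x : ℕ → W) (J : ℕ) (p : ℕ → Prop) [DecidablePred p] {a b : ℝ} (ha : 0 ≤ a)
    (h1 : ∀ j < J, ¬p j → ‖x (j + 1) - x j‖ ≤ a) (h2 : ∀ j < J, ‖x (j + 1) - x j‖ ≤ b) :
    ‖x J - x 0‖ ≤ J * a + ((Finset.range J).filter p).card * b := by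
  rw [← Finset.sum_range_sub]
  refine (norm_sum_le _ _).trans ?_
  calc _ ≤ ∑ j ∈ Finset.range J, (a + if p j then b else 0) := Finset.sum_le_sum fun j hj => by
        split_ifs with h
        · linarith [h2 j (Finset.mem_range.1 hj)]
        · linarith [h1 j (Finset.mem_range.1 hj) h]
    _ = _ := by
        rw [Finset.sum_add_distrib, ← Finset.sum_filter]
        simp

/-- Ok-link.  `u` a word for `g`, `c j = (u.take (j n)).prod`, `J = ⌈4 ρ / n⌉₊`, so `c J = g`.  `E j` = "`q * c j ∈ Bad` for the piece `(c j)⁻¹ * c (j + 1) ∈ ballR n`, or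
`Lp q ≠ Lp (q * c j)`".  Telescoping (`er_sub`): a good piece costs `ε₁ n`, a bad one `(K + k Λ) n + K` (`Lip.norm_er`, `exists_mb_W1`); with at most `θ J` bad pieces and
`n ≤ ρ` the total is `≤ 5 ρ (ε₁ + θ (2 K + k Λ))`. -/
theorem ok1 (M : Model h k) (K : ℝ) : ∃ Λ₀ S : ℝ, 1 ≤ Λ₀ ∧ 8 ≤ S ∧ ∀ ζ δ : ℝ, 0 < ζ → 0 < δ → ∃ (ε₁ δ₁ : ℝ) (n₁ : ℕ), 0 < ε₁ ∧ 0 < δ₁ ∧
    ∀ n ≥ n₁, ∃ ρ₁ : ℝ, ∀ ρ ≥ ρ₁, ∀ (f : M.QP K) (Lp : M.G → Mat k) (P : Measure M.G) (η₁ : ℝ),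
      Sel M Lp → 0 ≤ η₁ → η₁ * ρ ≤ δ₁ → Law M f.φ Lp n Λ₀ ε₁ δ₁ (S * ρ) η₁ P → ∀ g ∈ M.ballCR (4 * ρ),
        P {q | ¬Ok M f.φ Lp (ζ * ρ) q (q * g)} ≤ ENNReal.ofReal δ := by
  classical
  obtain ⟨Λ₀, S, ε₀, h1, h8, hε₀, H⟩ := clink M K
  obtain ⟨Λ, hΛ, hW⟩ := M.exists_mb_W1
  refine ⟨Λ₀, S, h1, h8, fun ζ δ hζ hδ => ?_⟩
  have hΛ0 : 0 ≤ (k : ℝ) * Λ := by positivity
  obtain ⟨B, hB⟩ : ∃ B : ℝ, B = 2 * |K| + k * Λ + 1 := ⟨_, rfl⟩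
  have hB0 : 0 < B := by rw [hB]; positivity
  obtain ⟨θ, hθe⟩ : ∃ θ : ℝ, θ = ζ / (10 * B) := ⟨_, rfl⟩
  have hθ : 0 < θ := by rw [hθe]; positivity
  have hθB : θ * B = ζ / 10 := by rw [hθe]; field_simp
  obtain ⟨δ', hδe⟩ : ∃ δ' : ℝ, δ' = δ / 3 * min θ 1 := ⟨_, rfl⟩
  have hδ' : 0 < δ' := by rw [hδe]; positivity
  have hδ3 : δ' + (δ' + δ') / θ ≤ δ := by
    have e1 : δ' ≤ δ / 3 * θ := hδe ▸ mul_le_mul_of_nonneg_left (min_le_left _ _) (by positivity)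
    have e2 : δ' ≤ δ / 3 * 1 := hδe ▸ mul_le_mul_of_nonneg_left (min_le_right _ _) (by positivity)
    have e3 : (δ' + δ') / θ ≤ 2 * (δ / 3) := by rw [div_le_iff₀ hθ]; linarith
    linarith
  obtain ⟨δ₀, n₁, hδ₀, H⟩ := H δ' hδ'
  obtain ⟨ε₁, hεe⟩ : ∃ ε₁ : ℝ, ε₁ = min ε₀ (ζ / 10) := ⟨_, rfl⟩
  have hε₁ : 0 < ε₁ := by rw [hεe]; positivity
  refine ⟨ε₁, min δ₀ δ', max n₁ 1, hε₁, by positivity, fun n hn => ?_⟩
  have hn0 : 0 < n := le_of_max_le_right hn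
  have hn1 : (1 : ℝ) ≤ n := Nat.one_le_cast.2 hn0
  obtain ⟨ρ₁, H⟩ := H n (le_of_max_le_left hn)
  refine ⟨max ρ₁ n, fun ρ hρ f Lp P η₁ hL hη hηρ hP g hg => ?_⟩
  have hnρ : (n : ℝ) ≤ ρ := le_of_max_le_right hρ
  have H' := H ρ (le_of_max_le_left hρ) f Lp P η₁ hL hη (hηρ.trans (min_le_left _ _))
    (hP.mono le_rfl (hεe ▸ min_le_left _ _) (min_le_left _ _) le_rfl le_rfl)
  obtain ⟨u, hu, hl, hg'⟩ := M.exists_wrdC hg.1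
  have hul : (u.length : ℝ) ≤ 4 * ρ := by rw [hl]; exact hg.2
  obtain ⟨c, hce⟩ : ∃ c : ℕ → M.G, c = fun j => (u.take (j * n)).prod := ⟨_, rfl⟩
  have hc : ∀ j, c j ∈ M.ballCR (4 * ρ) := fun j => by
    rw [hce]
    exact M.ballCR_mono (le_trans (by exact_mod_cast List.length_take_le' _ _) hul)
      (Model.WrdC.prod_mem fun x hx => hu x (List.mem_of_mem_take hx))
  have hp : ∀ j, (c j)⁻¹ * c (j + 1) ∈ M.ballR n := fun j => by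
    have e : (c j)⁻¹ * c (j + 1) = ((u.drop (j * n)).take n).prod := by
      simp only [hce]
      rw [add_one_mul, List.take_add, List.prod_append, inv_mul_cancel_left]
    rw [e]
    exact M.ballCR_subset_ballR _ (M.ballCR_mono (by exact_mod_cast List.length_take_le _ _)
      (Model.WrdC.prod_mem fun x hx => hu x (List.mem_of_mem_drop (List.mem_of_mem_take hx))))
  obtain ⟨J, hJe⟩ : ∃ J : ℕ, J = u.length / n + 1 := ⟨_, rfl⟩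
  have hc0 : c 0 = 1 := by simp [hce]
  have hcJ : c J = g := by
    simp only [hce]
    rw [List.take_of_length_le, hg']
    rw [hJe, add_one_mul]
    exact (Nat.lt_div_mul_add hn0).le
  have hJ : (J : ℝ) * n ≤ 5 * ρ := by
    have e : J * n ≤ u.length + n := by
      rw [hJe, add_one_mul]
      exact Nat.add_le_add_right (Nat.div_mul_le_self _ _) _
    have e' : (J : ℝ) * n ≤ u.length + n := by exact_mod_cast e
    linarith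
  obtain ⟨E, hEe⟩ : ∃ E : ℕ → Set M.G, E = fun j =>
      {q | q * c j ∈ Bad M f.φ Lp (ε₁ * n) ((c j)⁻¹ * c (j + 1))} ∪ {q | Lp q ≠ Lp (q * c j)} := ⟨_, rfl⟩
  have hE : ∀ j, MeasurableSet (E j) := fun j => by
    rw [hEe]
    exact ((measurableSet_Bad f.mφ hL _ _).preimage (measurable_mul_const _)).union
      (hL.measurableSet (a := fun q => q * c j) (Q := fun L q => Lp q ≠ L) (measurable_mul_const _) fun L => (hL.2 L).compl)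
  have hEP : ∀ j < J, P (E j) ≤ ENNReal.ofReal (δ' + δ') := fun j _ => by
    rw [hEe, ENNReal.ofReal_add hδ'.le hδ'.le]
    refine (measure_union_le _ _).trans (add_le_add ?_ (H' _ (hc j)))
    refine (hP.gd _ (M.ballCR_mono ?_ (hc j)) _ (M.ballR_mono ?_ (hp j))).trans (ENNReal.ofReal_le_ofReal (min_le_right _ _))
    · exact mul_le_mul_of_nonneg_right (by linarith) (by linarith)
    · exact le_mul_of_one_le_left (by linarith) h1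
  have hM := markov_count P J hE hθ hEP
  refine le_trans ?_ (ENNReal.ofReal_le_ofReal hδ3)
  rw [ENNReal.ofReal_add hδ'.le (by positivity)]
  refine le_trans (measure_mono ?_) ((measure_union_le _ _).trans (add_le_add (H' g hg) hM))
  intro q hq
  by_contra hq'
  simp only [mem_union, mem_ofPred_eq, not_or, not_not, not_lt] at hq'
  refine hq ⟨hq'.1, ?_⟩
  have hK := f.one_le
  have e0 : ∀ j, q * c (j + 1) = q * c j * ((c j)⁻¹ * c (j + 1)) := fun j => by group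
  have h2 := clc_tele (fun j => M.er f.φ (Lp q) (q * c j)) J (fun j => q ∈ E j) (a := ε₁ * n) (b := B * n) (by positivity)
    (fun j _ hj => by
      simp only [hEe, mem_union, mem_ofPred_eq, not_or, not_not, Bad, not_lt] at hj
      rw [e0, M.er_sub, hj.2]
      exact hj.1)
    (fun j _ => by
      rw [e0]
      refine (f.lφ.norm_er (hW _ (hL.1 q)) _ _).trans ?_
      have e1 := mul_le_mul_of_nonneg_left (show (M.len ((c j)⁻¹ * c (j + 1)) : ℝ) ≤ n from hp j) (by linarith : 0 ≤ K + k * Λ)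
      rw [hB, abs_of_pos (by linarith)]
      nlinarith)
  simp only [hc0, hcJ, mul_one] at h2
  refine h2.trans ?_
  have e2 := mul_le_mul_of_nonneg_right hq'.2 (by positivity : 0 ≤ B * n)
  have e3 : ε₁ ≤ ζ / 10 := hεe ▸ min_le_right _ _
  have e4 : (J : ℝ) * (ε₁ * n) ≤ 5 * ρ * (ζ / 10) := by
    rw [mul_left_comm, mul_comm]
    exact mul_le_mul hJ e3 hε₁.le (by linarith)
  have e5 : θ * J * (B * n) ≤ 5 * ρ * (ζ / 10) := by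
    rw [mul_mul_mul_comm, hθB, mul_comm]
    exact mul_le_mul_of_nonneg_right hJ (by positivity)
  linarith

end Crest.Agent.R182.PUR
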