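import Crest.Agent.R182.PUR.Basic

/-! R182/PUR/Elink (owner helper57): links across a root element. -/

set_option autoImplicit false
set_option linter.unusedVariables false
set_option linter.unusedSectionVars false
open Set Filter Topology MeasureTheory ProbabilityTheory Matrix Crest.GroupTheory
open scoped Pointwise commutatorElement ENNReal

noncomputable section
namespace Crest.Agent.R182.PUR
variable {h k : ℕ} {M : Model h k}

/-! ### task Elink-a -/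

/-- `X = 0`, or `W α = ⊥`, or `α = wt j ≠ 0`: `b = sec a`, `a i = round ((1 + η / 12) w α i / nm α)` (`sec_mem_AdmC`, `AdmC_mono`, `chi_sec`);
`α ⬝ chi (b z g) ≥ nm α ((1 + η / 12) w - k - η w / 24 - n)`, `g⁻¹ * exp X * g = exp (Ad g⁻¹ X)`, `norm_Ad_C`, `len_exp_le`. -/
theorem elink_geo (M : Model h k) : ∃ Λ : ℝ, 1 ≤ Λ ∧ ∀ (η : ℝ) (n : ℕ), 0 < η → η ≤ 1 → ∃ w₀ : ℝ, ∀ w ≥ w₀, ∀ X ∈ M.RV w,
    ∃ b ∈ M.AdmC (Λ * w) ((1 + η / 6) * w), ∀ z ∈ M.ballCR (η / 24 * w), ∀ g ∈ M.ballCR n,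
      (b * z * g)⁻¹ * M.exp X * (b * z * g) ∈ M.ballR 1 := by
  obtain ⟨B, D, hB, hAd⟩ := M.norm_Ad_C
  obtain ⟨μ, hμ, hμ'⟩ : ∃ μ : ℝ, 0 < μ ∧ ∀ j, M.wt j ≠ 0 → μ ≤ nm (M.wt j) := by
    have hf : ((fun j => (nm (M.wt j))⁻¹) '' univ).Finite := finite_univ.image _
    obtain ⟨L, hL⟩ := hf.bddAbove
    refine ⟨(|L| + 1)⁻¹, by positivity, fun j hj => ?_⟩
    have h1 : (nm (M.wt j))⁻¹ ≤ |L| + 1 := ((hL ⟨j, trivial, rfl⟩).trans (le_abs_self L)).trans (by linarith)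
    exact inv_le_of_inv_le₀ (nm_pos hj) h1
  have hk : (0 : ℝ) ≤ k := Nat.cast_nonneg k
  refine ⟨2 * k + 1, by linarith, fun η n hη hη1 => ?_⟩
  have hn : (0 : ℝ) ≤ n := Nat.cast_nonneg n
  obtain ⟨w₁, hw₁⟩ := eventually_atTop.1
    (Model.bxf_poly (B * (2 * k + 3) ^ D) D (ε := μ * η / 48) (by positivity))
  refine ⟨max w₁ (48 * (k + n) / η), fun w hw X hX => ?_⟩
  have hw1 : w₁ ≤ w := (le_max_left _ _).trans hw
  have hw2 : (k : ℝ) + n ≤ η * w / 48 := by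
    have := (le_max_right _ _).trans hw
    rw [div_le_iff₀ hη] at this
    linarith
  have hw0 : 0 ≤ w := by
    by_contra h0
    have : η * w < 0 := mul_neg_of_pos_of_neg hη (not_le.1 h0)
    linarith
  have hηw : η * w ≤ w := mul_le_of_le_one_left hw0 hη1
  have hηw0 : 0 ≤ η * w := by positivity
  by_cases hX0 : X = 0
  · refine ⟨1, ⟨[], fun x hx => absurd hx (by simp), by simp; positivity, fun l' hl' => ?_, rfl⟩, fun z _ g _ => ?_⟩
    · rw [List.prefix_nil.1 hl', List.prod_nil, M.chi_one]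
      have : nm (0 : Fin k → ℝ) = 0 := by simp [nm]
      rw [this]
      positivity
    · rw [hX0, M.exp_zero, mul_one, inv_mul_cancel]
      exact M.one_mem_ballR zero_le_one
  obtain ⟨α, hα, hXα, hXn⟩ := hX.resolve_left hX0
  obtain ⟨j, rfl⟩ := M.W_ne_bot.1 fun hb => hX0 ((Submodule.eq_bot_iff _).1 hb X hXα)
  set α := M.wt j with hαj
  have hN : 0 < nm α := nm_pos hα
  set v : Fin k → ℝ := ((1 + η / 12) * w / nm α) • α with hv
  set a : Fin k → ℤ := fun i => round (v i) with ha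
  set d : Fin k → ℝ := (fun i => (a i : ℝ)) - v with hd
  have hav : (fun i => (a i : ℝ)) = v + d := by rw [hd, add_sub_cancel]
  have hnv : nm v = (1 + η / 12) * w := by
    rw [hv, nm_smul, abs_of_nonneg (by positivity), div_mul_cancel₀ _ hN.ne']
  have hαv : α ⬝ᵥ v = (1 + η / 12) * w * nm α := by
    rw [hv, dotProduct_smul, ← nm_sq, smul_eq_mul]
    field_simp
  have hnd : nm d ≤ k := by
    refine (nm_le_norm d).trans (mul_le_of_le_one_right hk ((pi_norm_le_iff_of_nonneg zero_le_one).2 fun i => ?_))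
    have := abs_sub_round (v i)
    rw [abs_sub_comm] at this
    exact le_trans this (by norm_num)
  have hna : nm (fun i => (a i : ℝ)) ≤ (1 + η / 6) * w := by
    rw [hav]
    refine (nm_add_le v d).trans ?_
    rw [hnv]
    linarith
  have hb : M.sec a ∈ M.AdmC ((2 * k + 1) * w) ((1 + η / 6) * w) := by
    refine M.AdmC_mono ?_ hna (M.sec_mem_AdmC a)
    have h1 : nm (fun i => (a i : ℝ)) ≤ 2 * w := hna.trans (by linarith)
    have h2 := mul_le_mul_of_nonneg_left h1 hk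
    linarith
  refine ⟨M.sec a, hb, fun z hz g hg => ?_⟩
  have hc := M.inv_mem_ballCR (M.mul_mem_ballCR (M.mul_mem_ballCR (M.AdmC_subset_ballCR _ _ hb) hz) hg)
  set c := M.sec a * z * g with hcd
  have e1 : c⁻¹ * M.exp X * c = M.exp (M.Ad c⁻¹ X) := by rw [← M.conj, inv_inv]
  rw [e1]
  have hz' := M.bxk_nm hz
  have hg' := M.bxk_nm hg
  have hχ : α ⬝ᵥ M.chi c⁻¹ ≤ -(w * nm α) - μ * η / 48 * w := by
    rw [M.chi_inv, hcd, M.chi_mul, M.chi_mul, M.chi_sec, hav, dotProduct_neg, dotProduct_add, dotProduct_add,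
      dotProduct_add, hαv]
    have h1 := (abs_le.1 ((abs_dot_le_nm α d).trans (mul_le_mul_of_nonneg_left hnd hN.le))).1
    have h2 := (abs_le.1 ((abs_dot_le_nm α (M.chi z)).trans (mul_le_mul_of_nonneg_left hz' hN.le))).1
    have h3 := (abs_le.1 ((abs_dot_le_nm α (M.chi g)).trans (mul_le_mul_of_nonneg_left hg' hN.le))).1
    have h4 := mul_le_mul_of_nonneg_left hw2 hN.le
    have h5 := mul_le_mul_of_nonneg_right (hμ' j hα) hηw0
    nlinarith
  have hlen : 1 + (M.lenC c⁻¹ : ℝ) ≤ (2 * k + 3) * (1 + w) := by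
    have := hc.2
    nlinarith
  have hnorm : ‖M.Ad c⁻¹ X‖ ≤ 1 := by
    calc ‖M.Ad c⁻¹ X‖ ≤ B * (1 + M.lenC c⁻¹) ^ D * Real.exp (α ⬝ᵥ M.chi c⁻¹) * ‖X‖ := hAd _ hc.1 α X hXα
      _ ≤ B * ((2 * k + 3) * (1 + w)) ^ D * Real.exp (-(w * nm α) - μ * η / 48 * w) * Real.exp (w * nm α) := by
          gcongr
      _ = B * (2 * k + 3) ^ D * (1 + w) ^ D * Real.exp (-(μ * η / 48 * w)) := by
          rw [mul_pow, mul_assoc _ (Real.exp _), ← Real.exp_add]
          congr 1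
          · ring
          · congr 1
            ring
      _ ≤ Real.exp (μ * η / 48 * w) * Real.exp (-(μ * η / 48 * w)) := by
          gcongr
          exact hw₁ w hw1
      _ = 1 := by rw [← Real.exp_add, add_neg_cancel, Real.exp_zero]
  have h1 : M.len (M.exp (M.Ad c⁻¹ X)) ≤ 1 := (M.len_exp_le _).trans (Nat.ceil_le.2 (by exact_mod_cast hnorm))
  change (M.len (M.exp (M.Ad c⁻¹ X)) : ℝ) ≤ 1
  exact_mod_cast h1

/-! ### task Elink-b -/

/-- `cc g (q s) = cc g q + cc (g⁻¹ s g) (q g) - cc s q` for `g = gen i ^ n`, so `n ‖(L - L') e i‖ ≤ 2 ε₀ n + 4 K`; `exists_sep_W1`; `er_sub`, `Lip.norm_cc` -/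
theorem elink_det (M : Model h k) (K : ℝ) : ∃ (ε₀ : ℝ) (n₁ : ℕ), 0 < ε₀ ∧ ∀ n ≥ n₁, ∀ (f : M.QP K) (Lp : M.G → Mat k) (q s : M.G), Sel M Lp →
    M.chi s = 0 → s ∈ M.ballR 1 → (∀ i, (M.gen i ^ n)⁻¹ * s * M.gen i ^ n ∈ M.ballR 1) →
    (∀ i, q ∉ Bad M f.φ Lp (ε₀ * n) (M.gen i ^ n)) → (∀ i, q * s ∉ Bad M f.φ Lp (ε₀ * n) (M.gen i ^ n)) →
      Ok M f.φ Lp (2 * K) q (q * s) := by
  obtain ⟨η, hη, hsep⟩ := M.exists_sep_W1
  refine ⟨η / 4, ⌈8 * K / η⌉₊ + 1, by positivity, fun n hn f Lp q s hL h0 hs hs' hq hq' => ?_⟩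
  have hK := f.one_le
  have h2 : ∀ t ∈ M.ballR 1, ∀ p, ‖M.cc f.φ t p‖ ≤ 2 * K := fun t ht p => by
    have a1 := f.lφ.norm_cc t p
    have a2 : (M.len t : ℝ) ≤ 1 := ht
    nlinarith
  have hn1 : (⌈8 * K / η⌉₊ + 1 : ℝ) ≤ n := by exact_mod_cast hn
  have hn2 : 8 * K ≤ n * η := (div_le_iff₀ hη).1 (by linarith [Nat.le_ceil (8 * K / η)])
  have hn0 : (0 : ℝ) < n := lt_of_lt_of_le (by positivity) hn1
  refine ⟨hsep _ (hL.1 _) _ (hL.1 _) fun j i => ?_, ?_⟩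
  · set g := M.gen i ^ n with hg
    have e1 := M.cc_mul f.φ s g q
    have e2 := M.cc_mul f.φ g (g⁻¹ * s * g) q
    rw [show g * (g⁻¹ * s * g) = s * g by group, e1] at e2
    have e3 : (Lp q - Lp (q * s)) *ᵥ M.chi g = (M.cc f.φ g (q * s) - Lp (q * s) *ᵥ M.chi g) -
        (M.cc f.φ g q - Lp q *ᵥ M.chi g) + (M.cc f.φ s q - M.cc f.φ (g⁻¹ * s * g) (q * g)) := by
      rw [sub_mulVec, eq_sub_of_add_eq' e2]; abel
    have a1 : ‖M.cc f.φ g q - Lp q *ᵥ M.chi g‖ ≤ η / 4 * n := not_lt.1 (hq i)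
    have a2 : ‖M.cc f.φ g (q * s) - Lp (q * s) *ᵥ M.chi g‖ ≤ η / 4 * n := not_lt.1 (hq' i)
    have a3 : ‖(Lp q - Lp (q * s)) *ᵥ M.chi g‖ ≤ n * η := by
      rw [e3]
      refine (norm_add_le _ _).trans ((add_le_add (norm_sub_le _ _) (norm_sub_le _ _)).trans ?_)
      linarith [h2 s hs q, h2 _ (hs' i) (q * g)]
    have a4 := (norm_le_pi_norm _ j).trans a3
    rw [hg, M.chi_pow, M.chi_gen, mulVec_smul, mulVec_single_one, Pi.smul_apply, smul_eq_mul, Real.norm_eq_abs, abs_mul,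
      abs_of_pos hn0] at a4
    exact le_of_mul_le_mul_left a4 hn0
  · rw [M.er_sub, h0, mulVec_zero, sub_zero]
    exact h2 s hs q

/-- `p * (y * exp X * b) * z = (p * (y * b) * z) * s`, `s = (b z)⁻¹ * exp X * (b z)`; `elink_det`, `lwC_ae`, `PA_apply`, `Law.gd` with `c = 1` -/
theorem omE (M : Model h k) (K : ℝ) : ∃ (ε₀ : ℝ) (n₁ : ℕ), 0 < ε₀ ∧ ∀ n ≥ n₁, ∀ (f : M.QP K) (Lp : M.G → Mat k) (ν : Measure M.G)
    (ρ Λ₀ δ₁ r η₁ : ℝ) (y b : M.G) (X : V h), Sel M Lp → IsProbabilityMeasure ν → 1 ≤ ρ → 1 ≤ Λ₀ → 0 ≤ r →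
    (∀ z ∈ M.ballCR ρ, ∀ g ∈ M.ballCR n, (b * z * g)⁻¹ * M.exp X * (b * z * g) ∈ M.ballR 1) →
    Law M f.φ Lp n Λ₀ ε₀ δ₁ r η₁ (PA M ν ρ (y * b)) → Law M f.φ Lp n Λ₀ ε₀ δ₁ r η₁ (PA M ν ρ (y * M.exp X * b)) →
      ∫⁻ z, ν {p | ¬Ok M f.φ Lp (2 * K) (p * (y * b) * z) (p * (y * M.exp X * b) * z)} ∂M.lwC ρ ≤ ENNReal.ofReal (2 * k * δ₁) := by
  obtain ⟨ε₀, n₁, hε, H⟩ := elink_det M K
  refine ⟨ε₀, n₁, hε, fun n hn f Lp ν ρ Λ₀ δ₁ r η₁ y b X hL hν hρ hΛ hr hb h1 h2 => ?_⟩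
  set S : Set M.G := ⋃ i, Bad M f.φ Lp (ε₀ * n) (M.gen i ^ n) with hS
  have mS : MeasurableSet S := MeasurableSet.iUnion fun i => measurableSet_Bad f.mφ hL _ _
  have hg : ∀ i, M.gen i ^ n ∈ M.ballCR n := fun i => by simpa using M.pow_mem_ballCR (M.gen_mem_ballCR i) n
  have hP : ∀ P, Law M f.φ Lp n Λ₀ ε₀ δ₁ r η₁ P → P S ≤ k * ENNReal.ofReal δ₁ := fun P hP => by
    refine (measure_iUnion_fintype_le _ _).trans ((Finset.sum_le_sum (g := fun _ => ENNReal.ofReal δ₁) fun i _ => ?_).trans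
      (by simp))
    have := hP.gd 1 (M.one_mem_ballCR hr) _ (M.ballR_mono (le_mul_of_one_le_left (Nat.cast_nonneg n) hΛ)
      (M.ballCR_subset_ballR _ (hg i)))
    simpa only [mul_one, setOf_mem_eq] using this
  have hm : Measurable fun z => ν {p | p * (y * b) * z ∈ S} :=
    measurable_measure_prodMk_right (μ := ν) (s := {x : M.G × M.G | x.1 * (y * b) * x.2 ∈ S})
      (((measurable_fst.mul_const _).mul measurable_snd) mS)
  calc _ ≤ ∫⁻ z, (ν {p | p * (y * b) * z ∈ S} + ν {p | p * (y * M.exp X * b) * z ∈ S}) ∂M.lwC ρ := by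
        refine lintegral_mono_ae ((lwC_ae hρ).mono fun z hz => (measure_mono fun p hp => ?_).trans (measure_union_le _ _))
        by_contra hc
        simp only [hS, mem_union, mem_setOf_eq, mem_iUnion, not_or, not_exists] at hc
        have e : p * (y * M.exp X * b) * z = p * (y * b) * z * ((b * z)⁻¹ * M.exp X * (b * z)) := by group
        refine hp ?_
        rw [e] at hc ⊢
        refine H n hn f Lp _ _ hL ?_ ?_ (fun i => ?_) hc.1 hc.2
        · rw [M.chi_mul, M.chi_mul, M.chi_inv, M.chi_exp]; abel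
        · simpa only [mul_one] using hb z hz 1 (M.one_mem_ballCR (Nat.cast_nonneg n))
        · have := hb z hz _ (hg i)
          rwa [show (b * z * M.gen i ^ n)⁻¹ * M.exp X * (b * z * M.gen i ^ n) =
            (M.gen i ^ n)⁻¹ * ((b * z)⁻¹ * M.exp X * (b * z)) * M.gen i ^ n by group] at this
    _ ≤ k * ENNReal.ofReal δ₁ + k * ENNReal.ofReal δ₁ := by
        rw [lintegral_add_left hm, ← PA_apply hρ _ mS, ← PA_apply hρ _ mS]
        exact add_le_add (hP _ h1) (hP _ h2)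
    _ = _ := by
        rw [ENNReal.ofReal_mul (by positivity), ENNReal.ofReal_mul (by norm_num), ENNReal.ofReal_natCast,
          ENNReal.ofReal_ofNat]
        ring

end Crest.Agent.R182.PUR
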