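import Crest.Agent.R182.PUR.Basic
import Crest.Agent.R182.B.CLS

/-! R182/PUR/Law (owner helper57): the laws of the vertices. -/

set_option autoImplicit false
set_option linter.unusedVariables false
set_option linter.unusedSectionVars false
open Set Filter Topology MeasureTheory ProbabilityTheory Matrix Crest.GroupTheory
open scoped Pointwise commutatorElement ENNReal

noncomputable section
namespace Crest.Agent.R182.PUR
variable {h k : ℕ} {M : Model h k}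

/-! ### task Law-a -/

/-- `Box_scale`: `exp (b s) ≥ T` -/
theorem smul_Box_subset (M : Model h k) (T η : ℝ) (hη : 0 < η) : ∃ w₀ : ℝ, ∀ w ≥ w₀, ∀ w', T • M.Box w' ⊆ M.Box (w' + η * w) := by
  obtain ⟨b, B, hb, -, hs⟩ := M.Box_scale
  refine ⟨|T| / (b * η), fun w hw w' => ?_⟩
  have h1 : |T| ≤ b * (η * w) := by
    rw [ge_iff_le, div_le_iff₀ (by positivity)] at hw
    linarith
  have h2 : 0 ≤ η * w := nonneg_of_mul_nonneg_right ((abs_nonneg T).trans h1) hb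
  rintro _ ⟨X, hX, rfl⟩
  have h3 : M.In (M.RV (w' + η * w)) 1 (Real.exp (-(b * (η * w)))) X := (hs w' _ h2).2 hX
  have h4 : M.In (M.RV (w' + η * w)) 1 1 (T • X) := (h3.smul T).mono' (M.star_RV _) (by
    rw [abs_mul, abs_of_pos (Real.exp_pos _), Real.exp_neg, ← div_eq_mul_inv, div_le_one (Real.exp_pos _)]
    linarith [Real.add_one_le_exp (b * (η * w))])
  rwa [Core.In, one_smul] at h4

/-- Domination.  `PA_apply`; remove `exp Y` with `Inv_apply`; `lwC_dom`; `Measure.prod_apply_symm`. -/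
theorem law_dom {ν : Measure M.G} [IsProbabilityMeasure ν] {S Θ : Set M.G} {η₁ ρ : ℝ} (hν : Inv ν S η₁) (hρ : 1 ≤ ρ) (hΘ : IsCompact Θ)
    {D : ℝ≥0∞} (hD : M.hC Θ ≤ D * M.hC (M.ballCR ρ)) {y b c : M.G} (hy : y ∈ S) (hb : b ∈ M.C) (hc : c ∈ M.C)
    (hsub : ∀ z ∈ M.ballCR ρ, b * z * c ∈ Θ) {B : Set M.G} (hB : MeasurableSet B) :
    PA M ν ρ (y * b) {q | q * c ∈ B} ≤ D * ((ν.prod (M.hC[|Θ])).map fun z => z.1 * z.2) B + ENNReal.ofReal η₁ := by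
  have := M.isProbabilityMeasure_lwC hρ
  have hm : MeasurableSet {z : M.G × M.G | z.1 * z.2 ∈ B} := measurable_mul hB
  have hF : Measurable fun x => ν {p | p * x ∈ B} := measurable_measure_prodMk_right hm
  rw [PA_apply hρ _ (S := {q | q * c ∈ B}) (measurable_mul_const c hB), Measure.map_apply measurable_mul hB,
    Measure.prod_apply_symm (measurable_mul hB)]
  refine le_trans (lintegral_mono (g := fun z => ν {p | p * (b * z * c) ∈ B} + ENNReal.ofReal η₁) fun z => ?_) ?_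
  · refine le_trans (le_of_eq ?_) (M.Inv_apply hν hy {p | p * (b * z * c) ∈ B})
    simp only [mem_ofPred_eq, mul_assoc]
  · rw [lintegral_add_right _ measurable_const, lintegral_const, measure_univ, mul_one]
    exact add_le_add (lwC_dom hρ hΘ hD hb hc hsub hF) le_rfl

/-- Almost invariance of a mixture: `p * A * z * c * x = p * ((A z c) x (A z c)⁻¹) * (A z c)`, `PA_apply`, `Inv_apply`, `lwC_ae`. -/
theorem law_inv_of {ν : Measure M.G} [IsProbabilityMeasure ν] {S S' : Set M.G} {η₁ ρ : ℝ} (hν : Inv ν S η₁) (hρ : 1 ≤ ρ) {A c : M.G}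
    (h : ∀ z ∈ M.ballCR ρ, ∀ x ∈ S', A * z * c * x * (A * z * c)⁻¹ ∈ S) : Inv ((PA M ν ρ A).map (· * c)) S' η₁ := by
  have := M.isProbabilityMeasure_lwC hρ
  intro x hx B hB
  rw [Measure.map_apply (measurable_mul_const c) (measurable_mul_const x hB), Measure.map_apply (measurable_mul_const c) hB,
    PA_apply hρ _ (measurable_mul_const c (measurable_mul_const x hB)), PA_apply hρ _ (measurable_mul_const c hB)]
  refine le_trans (lintegral_mono_ae (g := fun z => ν {p | p * A * z ∈ (· * c) ⁻¹' B} + ENNReal.ofReal η₁) ?_) ?_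
  · filter_upwards [lwC_ae hρ] with z hz
    refine le_trans (le_of_eq ?_) (M.Inv_apply hν (h z hz x hx) {p | p * A * z ∈ (· * c) ⁻¹' B})
    simp [mul_assoc]
  · rw [lintegral_add_right _ measurable_const, lintegral_const, measure_univ, mul_one]

/-- `Ad_Gv_subset` at the scale `w' = (1 + η / 2) w` with `m = η / 9` (`1 + η / 3 ≤ (1 - η / 9) (1 + η / 2)`), `exp_Qi_mul` twice (`inv_exp_Qi`, `Box_mono`,
`smul_Qi_mono`), `smul_Box_subset`. -/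
theorem conj_Gv (M : Model h k) : ∃ b : ℝ, 0 < b ∧ ∀ T Λ η : ℝ, 0 < η → η ≤ 1 → ∃ w₀ : ℝ, ∀ w ≥ w₀, ∀ Y ∈ T • M.Box w,
    ∀ g ∈ M.ballCR (Λ * w), nm (M.chi g) ≤ (1 + η / 3) * w → ∀ x ∈ M.exp '' M.Gv (b * η * w),
      M.exp Y * g * x * (M.exp Y * g)⁻¹ ∈ M.exp '' M.Box ((1 + η) * w) := by
  obtain ⟨b, hb, hA⟩ := M.Ad_Gv_subset
  obtain ⟨D, n, hD, hmul⟩ := M.exists_In_mul
  refine ⟨b / 9, by positivity, fun T Λ η hη hη1 => ?_⟩
  obtain ⟨w₁, h₁⟩ := hA |Λ| (η / 9) (by positivity) (by linarith)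
  obtain ⟨w₂, h₂⟩ := smul_Box_subset M (D * max |T| 1 ^ n * 1) (η / 2) (half_pos hη)
  refine ⟨max 0 (max w₁ w₂), fun w hw Y hY g hg hχ => ?_⟩
  rintro _ ⟨X, hX, rfl⟩
  obtain ⟨hw0, hw1, hw2⟩ : 0 ≤ w ∧ w₁ ≤ w ∧ w₂ ≤ w := by simpa using hw
  have hww : w ≤ (1 + η / 2) * w := by nlinarith
  have h3 : M.In (M.RV ((1 + η / 2) * w)) 1 (Real.exp (-(b * (η / 9) * ((1 + η / 2) * w)))) (M.Ad g X) :=
    h₁ _ (hw1.trans hww) g (M.ballCR_mono ((mul_le_mul_of_nonneg_right (le_abs_self Λ) hw0).trans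
      (mul_le_mul_of_nonneg_left hww (abs_nonneg Λ))) hg)
      (hχ.trans (by rw [← mul_assoc]; exact mul_le_mul_of_nonneg_right (by nlinarith) hw0)) X
      (M.Gv_mono (by nlinarith [mul_le_mul_of_nonneg_left hww (mul_pos hb hη).le]) hX)
  have h4 : M.In (M.RV ((1 + η / 2) * w)) 1 T Y := smul_set_mono (M.Box_mono hww) hY
  have h5 := (hmul _ (M.star_RV _) 1 (max |T| 1) 1 Y _ (le_max_right _ _) zero_le_one (le_max_right _ _)
    (h4.mono' (M.star_RV _) (le_max_left _ _)) (h3.mono (M.star_RV _) (Real.exp_pos _).le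
      (Real.exp_le_one_iff.2 (neg_nonpos.2 (by positivity))))).2.2.2.2.2
  refine ⟨M.Ad (M.exp Y) (M.Ad g X), ?_, by rw [M.conj, map_mul, Module.End.mul_apply]⟩
  rw [show (1 + η) * w = (1 + η / 2) * w + η / 2 * w by ring]
  exact h₂ w hw2 _ h5

/-! ### task Law-b -/

/-- The laws of the vertices.  `b₀ = min b (1 / 12)`; `D₀` from `hC_doubling ((Λ + 2) / ρ₀)` at the scale `ρ₀ w`; `loc1` with `δ = δ₁ / (2 D₀)` gives `n₂ r η'`;
`Θ` from `exists_folner (Λ + 1) η r η'`; `law_dom` (`smul_Box_subset`, `measurableSet_Bad`, `w⁻¹ ^ 2 ≤ δ₁ / 2`), `law_inv_of`, `conj_Gv`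
(heights: `(1 + η / 6) w + ρ₀ w + S ρ₀ w ≤ (1 + η / 3) w`, `nm_chi_le`, `ballCR_subset_ballR`). -/
theorem exists_law (M : Model h k) : ∃ b₀ : ℝ, 0 < b₀ ∧ ∀ (K T Λ η S ρ₀ Λ₀ ε₁ δ₁ : ℝ) (n₁ : ℕ), 1 ≤ Λ → 0 < η → η ≤ 1 → 1 ≤ S → 0 < ρ₀ →
    S * ρ₀ ≤ b₀ * η → 0 < ε₁ → 0 < δ₁ → ∃ (n₂ : ℕ) (w₀ : ℝ), ∀ (f : M.QP K) (w : ℝ) (ν : Measure M.G), w₀ ≤ w → IsProbabilityMeasure ν →
      Inv ν (M.exp '' M.Box ((1 + η) * w)) (w⁻¹ ^ 2) → ∃ (n : ℕ) (Lp : M.G → Mat k), n₁ ≤ n ∧ n ≤ n₂ ∧ Sel M Lp ∧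
        ∀ A ∈ Vx M T w (Λ * w) ((1 + η / 6) * w), Law M f.φ Lp n Λ₀ ε₁ δ₁ (S * (ρ₀ * w)) (w⁻¹ ^ 2) (PA M ν (ρ₀ * w) A) := by
  obtain ⟨b, hb, hconj⟩ := conj_Gv M
  refine ⟨min b (1 / 12), lt_min hb (by norm_num), fun K T Λ η S ρ₀ Λ₀ ε₁ δ₁ n₁ hΛ hη hη1 hS hρ₀ hSρ hε₁ hδ₁ => ?_⟩
  obtain ⟨D₀, hD₀, hdbl⟩ := M.hC_doubling ((Λ + 2) / ρ₀)
  have hD₀' : 0 < D₀ := by linarith
  obtain ⟨n₂, r, η', hη', hloc⟩ := M.loc1 K Λ₀ ε₁ (δ₁ / (2 * D₀)) hε₁ (by positivity) n₁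
  obtain ⟨w₁, hfol⟩ := M.exists_folner (Λ + 1) η r η' (by linarith) hη hη'
  obtain ⟨w₂, hbox⟩ := smul_Box_subset M T η hη
  obtain ⟨w₃, hcj⟩ := hconj T (Λ + 1) η hη hη1
  have hS1 : S * ρ₀ ≤ b * η := hSρ.trans (mul_le_mul_of_nonneg_right (min_le_left _ _) hη.le)
  have hS2 : S * ρ₀ ≤ 1 / 12 * η := hSρ.trans (mul_le_mul_of_nonneg_right (min_le_right _ _) hη.le)
  have hS3 : ρ₀ ≤ S * ρ₀ := le_mul_of_one_le_left hρ₀.le hS
  refine ⟨n₂, max (max (max w₁ w₂) (max w₃ 1)) (max ρ₀⁻¹ (2 / δ₁)), fun f w ν hw hν hinv => ?_⟩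
  simp only [max_le_iff] at hw
  obtain ⟨⟨⟨hw1, hw2⟩, hw3, hw4⟩, hw5, hw6⟩ := hw
  have hw0 : 0 < w := by linarith
  have hρ : 1 ≤ ρ₀ * w := by
    rw [← mul_inv_cancel₀ hρ₀.ne']
    exact mul_le_mul_of_nonneg_left hw5 hρ₀.le
  obtain ⟨Θ, hΘ, hΘ1, hΘ2, hΘ3⟩ := hfol w hw1
  have hD : M.hC Θ ≤ ENNReal.ofReal D₀ * M.hC (M.ballCR (ρ₀ * w)) := by
    refine (measure_mono hΘ2).trans (le_of_eq_of_le ?_ (hdbl _ hρ))
    congr 2
    field_simp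
    ring
  have hpos : M.hC Θ ≠ 0 := by
    refine ((M.hC_ballCR_pos le_rfl).trans_le (measure_mono (Subset.trans (fun c hc => ?_) hΘ1))).ne'
    exact ⟨M.ballCR_mono (by nlinarith) hc, (M.bxk_nm hc).trans (by nlinarith)⟩
  haveI : IsProbabilityMeasure (M.hC[|Θ]) := cond_isProbabilityMeasure_of_finite hpos hΘ.measure_lt_top.ne
  obtain ⟨n, hn1, hn2, Lp, hL1, hL2, hL3⟩ := hloc f _ (Measure.isProbabilityMeasure_map measurable_mul.aemeasurable) (hΘ3 ν hν hinv)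
  refine ⟨n, Lp, hn1, hn2, ⟨hL1, hL2⟩, ?_⟩
  rintro _ ⟨Y, hY, a, ha, hna, rfl⟩
  have hmem : ∀ c ∈ M.ballCR (S * (ρ₀ * w)), ∀ z ∈ M.ballCR (ρ₀ * w),
      a * z * c ∈ M.ballCR ((Λ + 1) * w) ∧ nm (M.chi (a * z * c)) ≤ (1 + η / 3) * w := fun c hc z hz => by
    have e1 := mul_le_mul_of_nonneg_right hS2 hw0.le
    have e2 := mul_le_mul_of_nonneg_right hS3 hw0.le
    have e3 := mul_le_mul_of_nonneg_right hη1 hw0.le
    refine ⟨M.ballCR_mono (by nlinarith) (M.mul_mem_ballCR (M.mul_mem_ballCR ha hz) hc), ?_⟩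
    rw [M.chi_mul, M.chi_mul]
    have e4 := nm_add_le (M.chi a + M.chi z) (M.chi c)
    have e5 := nm_add_le (M.chi a) (M.chi z)
    have e6 := M.bxk_nm hz
    have e7 := M.bxk_nm hc
    nlinarith
  refine ⟨isProbabilityMeasure_PA hρ _, fun c hc g hg => ?_, fun c hc => ?_⟩
  · have hy : M.exp Y ∈ M.exp '' M.Box ((1 + η) * w) :=
      ⟨Y, by rw [add_mul, one_mul]; exact hbox w hw2 w hY, rfl⟩
    refine (law_dom hinv hρ hΘ hD hy ha.1 hc.1 (fun z hz => hΘ1 (hmem c hc z hz))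
      (measurableSet_Bad f.mφ ⟨hL1, hL2⟩ (ε₁ * n) g)).trans ?_
    have h1 : w⁻¹ ^ 2 ≤ δ₁ / 2 := by
      have e1 : w⁻¹ ≤ δ₁ / 2 := by
        rw [inv_le_comm₀ hw0 (by positivity), inv_div]
        exact hw6
      have e2 : w⁻¹ ≤ 1 := inv_le_one_of_one_le₀ hw4
      have e3 : 0 ≤ w⁻¹ := by positivity
      nlinarith
    calc _ ≤ ENNReal.ofReal D₀ * ENNReal.ofReal (δ₁ / (2 * D₀)) + ENNReal.ofReal (δ₁ / 2) :=
          add_le_add (mul_le_mul_right (hL3 g hg) _) (ENNReal.ofReal_le_ofReal h1)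
      _ = ENNReal.ofReal δ₁ := by
          rw [← ENNReal.ofReal_mul hD₀'.le, ← ENNReal.ofReal_add (by positivity) (by positivity)]
          congr 1
          field_simp
          ring
  · refine law_inv_of hinv hρ fun z hz x hx => ?_
    have h1 : S * (ρ₀ * w) ≤ b * η * w := by
      rw [← mul_assoc]
      exact mul_le_mul_of_nonneg_right hS1 hw0.le
    have h2 := hcj w hw3 Y hY _ (hmem c hc z hz).1 (hmem c hc z hz).2 x (image_mono (M.Gv_mono h1) hx)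
    simpa only [mul_assoc] using h2

end Crest.Agent.R182.PUR
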