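import Crest.Agent.R182.B.NA

/-! R182/PUR/Defs (owner helper57): definitions (FROZEN).  Overview: notes182/route.md, section PUR. -/

set_option autoImplicit false
set_option linter.unusedVariables false
set_option linter.unusedSectionVars false
open Set Filter Topology MeasureTheory ProbabilityTheory Matrix Crest.GroupTheory
open scoped Pointwise commutatorElement ENNReal

noncomputable section
namespace Crest.Agent.R182.PUR
variable {h k : ℕ} (M : Model h k)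

/-- a measurable selection of linear parts -/
def Sel (Lp : M.G → Mat k) : Prop := (∀ p, Lp p ∈ M.W1) ∧ ∀ L, MeasurableSet {p | Lp p = L}

/-- the points where the increment along `g` is not given by the linear part -/
def Bad (φ : M.G → M.G) (Lp : M.G → Mat k) (e : ℝ) (g : M.G) : Set M.G := {q | e < ‖M.cc φ g q - Lp q *ᵥ M.chi g‖}

/-- what is used about the law `P` of a base point -/
structure Law (φ : M.G → M.G) (Lp : M.G → Mat k) (n : ℕ) (Λ₀ ε₁ δ₁ r η₁ : ℝ) (P : Measure M.G) : Prop where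
  prob : IsProbabilityMeasure P
  gd : ∀ c ∈ M.ballCR r, ∀ g ∈ M.ballR (Λ₀ * n), P {q | q * c ∈ Bad M φ Lp (ε₁ * n) g} ≤ ENNReal.ofReal δ₁
  inv : ∀ c ∈ M.ballCR r, Inv (P.map (· * c)) (M.exp '' M.Gv r) η₁

/-- same linear part and close deviations -/
def Ok (φ : M.G → M.G) (Lp : M.G → Mat k) (ζ : ℝ) (q q' : M.G) : Prop :=
  Lp q = Lp q' ∧ ‖M.er φ (Lp q) q' - M.er φ (Lp q) q‖ ≤ ζ

/-- the law of `p * A * z`, `p ~ ν`, `z ~ lwC ρ` -/
def PA (ν : Measure M.G) (ρ : ℝ) (A : M.G) : Measure M.G := (ν.prod (M.lwC ρ)).map fun x => x.1 * A * x.2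

/-- the probability that `p * A * z` and `p * A' * z'` are not linked -/
def om (φ : M.G → M.G) (Lp : M.G → Mat k) (ν : Measure M.G) (ρ ζ : ℝ) (A A' : M.G) : ℝ≥0∞ :=
  ∫⁻ z, ∫⁻ z', ν {p | ¬Ok M φ Lp ζ (p * A * z) (p * A' * z')} ∂M.lwC ρ ∂M.lwC ρ

/-- vertices -/
def Vx (T w ℓ H : ℝ) : Set M.G :=
  {A | ∃ Y ∈ T • M.Box w, ∃ b ∈ M.ballCR ℓ, nm (M.chi b) ≤ H ∧ A = M.exp Y * b}

/-- the `β`-height of the image of the vertex `j` -/
def ht (φ : M.G → M.G) (β : Fin k → ℝ) (γ : ℕ → M.G) (q : M.G) (j : ℕ) : ℝ := β ⬝ᵥ M.chi (φ (q * γ j))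

/-- paths in `C` along which every root grows in one of the two directions -/
structure Pth (Λ₁ a : ℝ) (γ : ℕ → M.G) (N ℓm : ℕ) : Prop where
  step : ∀ i < N, (γ i)⁻¹ * γ (i + 1) ∈ M.ballCR Λ₁
  mrg : ∀ i ℓ : ℕ, ℓ ≤ i → i + ℓ ≤ N → ℓ = min (min i (N - i)) ℓm → ∀ j, M.wt j ≠ 0 →
    2 * a * ℓ ≤ M.wt j ⬝ᵥ (M.chi (γ (i + ℓ)) - M.chi (γ i)) ∨ 2 * a * ℓ ≤ M.wt j ⬝ᵥ (M.chi (γ (i - ℓ)) - M.chi (γ i))

/-- the path `c, c d, …, c d ^ m`, then the hop `u`, then `m` more steps `d` -/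
def hop (c d : M.G) (u : List M.G) (m j : ℕ) : M.G := c * ((List.replicate m d ++ u ++ List.replicate m d).take j).prod

end Crest.Agent.R182.PUR
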