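import Crest.Agent.R182.PUR.Defs

/-! R182/PUR/Pat (owner helper57): tops of the height along a path are rare. -/

set_option autoImplicit false
set_option linter.unusedVariables false
set_option linter.unusedSectionVars false
open Set Filter Topology MeasureTheory ProbabilityTheory Matrix Crest.GroupTheory
open scoped Pointwise commutatorElement ENNReal

noncomputable section
namespace Crest.Agent.R182.PUR
variable {h k : ℕ} {M : Model h k}

/-! ### task Pat-a -/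

theorem pata_prod (δ : ℕ → M.G) (n : ℕ) : ((List.range n).map fun j => (δ j)⁻¹ * δ (j + 1)).prod = (δ 0)⁻¹ * δ n := by
  induction n with
  | zero => simp
  | succ n ih => rw [List.prod_range_succ, ih]; group

theorem pata_mem {Λ : ℝ} (hΛ : 0 ≤ Λ) {δ : ℕ → M.G} {n : ℕ} (hδ : ∀ j < n, (δ j)⁻¹ * δ (j + 1) ∈ M.ballCR Λ) :
    (δ 0)⁻¹ * δ n ∈ M.ballCR (Λ * n) := by
  induction n with
  | zero => simpa using M.one_mem_ballCR le_rfl
  | succ n ih =>
    have h1 := M.mul_mem_ballCR (ih fun j hj => hδ j (by omega)) (hδ n (by omega))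
    rw [mul_assoc, mul_inv_cancel_left] at h1
    exact M.ballCR_mono (le_of_eq (by push_cast; ring)) h1

theorem pata_low {φ : M.G → M.G} {β : Fin k → ℝ} {r r' : ℝ} (hr : 0 ≤ r) (hr' : 0 ≤ r') (δ : ℕ → M.G) (n : ℕ) (q : M.G)
    (hq : ∀ j ≤ n, β ⬝ᵥ M.chi (φ (q * δ j)) ≤ β ⬝ᵥ M.chi (φ (q * δ 0))) :
    M.Low φ β r r' ((List.range n).map fun j => (δ j)⁻¹ * δ (j + 1)) (q * δ 0) := by
  have key : ∀ j ≤ n, β ⬝ᵥ M.cc φ ((List.range j).map fun j => (δ j)⁻¹ * δ (j + 1)).prod (q * δ 0) ≤ 0 := by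
    intro j hj
    rw [pata_prod, Model.cc, mul_assoc, mul_inv_cancel_left, dotProduct_sub, sub_nonpos]
    exact hq j hj
  refine ⟨fun l' hl' => ?_, (key n le_rfl).trans hr'⟩
  rw [List.prefix_iff_eq_take.1 hl', ← List.map_take, List.take_range]
  exact (key _ (min_le_right _ _)).trans hr

theorem pata_conj (M : Model h k) (Λ : ℝ) {a : ℝ} (ha : 0 < a) : ∀ᶠ ℓ : ℝ in atTop, ∀ c ∈ M.ballCR (Λ * ℓ), ∀ α, ∀ X ∈ M.W α,
    ‖X‖ ≤ Real.exp (a * ℓ) → 2 * a * ℓ ≤ α ⬝ᵥ M.chi c → c⁻¹ * M.exp X * c ∈ M.ballR 1 := by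
  obtain ⟨B, D, hB, H⟩ := M.norm_Ad_C
  filter_upwards [ev_poly_le (B * (1 + |Λ|) ^ D) D ha, eventually_ge_atTop 0] with ℓ h1 h0 c hc α X hX hn h2
  have hc' := M.inv_mem_ballCR hc
  have h3 := H c⁻¹ hc'.1 α X hX
  have h4 : (1 + M.lenC c⁻¹ : ℝ) ≤ (1 + |Λ|) * (1 + ℓ) := by
    have := hc'.2
    have := mul_le_mul_of_nonneg_right (le_abs_self Λ) h0
    have := abs_nonneg Λ
    nlinarith
  have h5 : Real.exp (α ⬝ᵥ M.chi c⁻¹) ≤ Real.exp (-(2 * a * ℓ)) := by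
    rw [M.chi_inv, dotProduct_neg]
    exact Real.exp_le_exp.2 (by linarith)
  have h6 : ‖M.Ad c⁻¹ X‖ ≤ 1 := by
    calc _ ≤ B * ((1 + |Λ|) * (1 + ℓ)) ^ D * Real.exp (-(2 * a * ℓ)) * Real.exp (a * ℓ) := h3.trans (by gcongr)
      _ = B * (1 + |Λ|) ^ D * (1 + ℓ) ^ D * Real.exp (-(2 * a * ℓ)) * Real.exp (a * ℓ) := by rw [mul_pow]; ring
      _ ≤ Real.exp (a * ℓ) * Real.exp (-(2 * a * ℓ)) * Real.exp (a * ℓ) := by gcongr
      _ = 1 := by rw [← Real.exp_add, ← Real.exp_add, ← Real.exp_zero]; congr 1; ring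
  rw [M.mul_exp, inv_mul_cancel_right]
  have h7 : M.len (M.exp (M.Ad c⁻¹ X)) ≤ 1 := (M.len_exp_le _).trans (Nat.ceil_le.2 (by simpa using h6))
  show (_ : ℝ) ≤ 1
  exact_mod_cast h7

/-- One vertex.  `na` with `S = 1`, `Λ = max Λ₁ 1`, `l₁ = List.ofFn fun j : Fin ℓ => (γ (i + j))⁻¹ * γ (i + j + 1)`,
`l₂ = List.ofFn fun j : Fin ℓ => (γ (i - j))⁻¹ * γ (i - j - 1)`; the prefixes have products `(γ i)⁻¹ * γ (i ± j)` (telescoping; these lie in `ballCR (j Λ₁)`),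
so at `q' = q * γ i` the event implies `Low f.φ β 0 0`, hence `Low (b ℓ) (b ℓ - B₁)` for `B₁ ≤ b ℓ`.  Merge hypothesis: `W α = ⊥` unless `α = wt j`;
`g⁻¹ * exp X * g = exp (Ad g⁻¹ X)` has norm `≤ B (1 + Λ₁ ℓ) ^ D exp (-2 a ℓ) exp (a ℓ) ≤ 1` for large `ℓ` (`norm_Ad_C`, `len_exp_le`).
`Inv_average` with `ν = P.map (· * γ i)`, `la = lw E (Gv (a ℓ))`, `S = exp '' Gv (a ℓ)` (`lw_compl`, `Gv_subset_E`, `inv_exp_Qi` with `t = 1`,
`isProbabilityMeasure_lw_Gv`), `Ω = ∅`, `A = {q' | ∀ j ∈ [i - ℓ, i + ℓ], β ⬝ chi (φ (q' * ((γ i)⁻¹ * γ j))) ≤ β ⬝ chi (φ q')}`. -/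
theorem pat1 (K Λ₁ a : ℝ) (ha : 0 < a) {β : Fin k → ℝ} (hβ : β ∈ M.R1) : ∃ (c B : ℝ) (ℓ₀ : ℕ), 0 < c ∧ 1 ≤ B ∧
    ∀ (f : M.QP K) (P : Measure M.G) (η₁ : ℝ) (γ : ℕ → M.G) (i ℓ : ℕ), IsProbabilityMeasure P → ℓ₀ ≤ ℓ → ℓ ≤ i →
      (∀ j < i + ℓ, (γ j)⁻¹ * γ (j + 1) ∈ M.ballCR Λ₁) →
      (∀ j, M.wt j ≠ 0 → 2 * a * ℓ ≤ M.wt j ⬝ᵥ (M.chi (γ (i + ℓ)) - M.chi (γ i)) ∨
        2 * a * ℓ ≤ M.wt j ⬝ᵥ (M.chi (γ (i - ℓ)) - M.chi (γ i))) →
      Inv (P.map (· * γ i)) (M.exp '' M.Gv (a * ℓ)) η₁ →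
      P {q | ∀ j ≤ i + ℓ, i - ℓ ≤ j → ht M f.φ β γ q j ≤ ht M f.φ β γ q i} ≤
        ENNReal.ofReal (B * Real.exp (-(c * ℓ))) + ENNReal.ofReal η₁ := by
  obtain ⟨A⟩ := M.exists_Aff hβ
  obtain ⟨B₁, hB₁, H⟩ := M.na K A
  obtain ⟨b, c, B, hb, hc, hB, H⟩ := H (max Λ₁ 1) a ha
  have hΛ : 1 ≤ max Λ₁ 1 := le_max_right _ _
  obtain ⟨ℓ₀, hℓ₀⟩ := eventually_atTop.1 (tendsto_natCast_atTop_atTop.eventually ((pata_conj M (max Λ₁ 1) ha).and
    ((eventually_ge_atTop 1).and ((tendsto_id.const_mul_atTop hb).eventually_ge_atTop B₁))))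
  refine ⟨c, B, ℓ₀, hc, hB, fun f P η₁ γ i ℓ hP h0 hi hs hm hI => ?_⟩
  obtain ⟨e1, e2, e3⟩ := hℓ₀ ℓ h0
  simp only [id] at e3
  set δ₁ : ℕ → M.G := fun j => γ (i + j) with hδ₁
  set δ₂ : ℕ → M.G := fun j => γ (i - j) with hδ₂
  have s1 : ∀ j < ℓ, (δ₁ j)⁻¹ * δ₁ (j + 1) ∈ M.ballCR (max Λ₁ 1) := fun j hj =>
    M.ballCR_mono (le_max_left _ _) (hs (i + j) (by omega))
  have s2 : ∀ j < ℓ, (δ₂ j)⁻¹ * δ₂ (j + 1) ∈ M.ballCR (max Λ₁ 1) := fun j hj => by
    have h1 := M.inv_mem_ballCR (hs (i - (j + 1)) (by omega))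
    rw [_root_.mul_inv_rev, inv_inv, show i - (j + 1) + 1 = i - j by omega] at h1
    exact M.ballCR_mono (le_max_left _ _) h1
  set l₁ := (List.range ℓ).map fun j => (δ₁ j)⁻¹ * δ₁ (j + 1) with hl₁
  set l₂ := (List.range ℓ).map fun j => (δ₂ j)⁻¹ * δ₂ (j + 1) with hl₂
  have hlen : (ℓ : ℝ) ≤ max Λ₁ 1 * ℓ := le_mul_of_one_le_left (by positivity) hΛ
  have hT : MeasurableSet {q | M.Low f.φ β (b * ℓ) (b * ℓ - B₁ * 1) l₁ q ∧ M.Low f.φ β (b * ℓ) (b * ℓ - B₁ * 1) l₂ q} := by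
    have m1 := M.na_meas f.mφ β (b * ℓ) (b * ℓ - B₁ * 1) l₁ 1
    have m2 := M.na_meas f.mφ β (b * ℓ) (b * ℓ - B₁ * 1) l₂ 1
    simp only [one_mul] at m1 m2
    exact m1.inter m2
  have : IsProbabilityMeasure (M.lw M.E (M.Gv (a * ℓ))) := by
    simpa using M.isProbabilityMeasure_lw_Gv (U := M.E) le_rfl one_pos (a * ℓ)
  have : IsProbabilityMeasure (P.map (· * γ i)) := Measure.isProbabilityMeasure_map (measurable_mul_const _).aemeasurable
  have hG : M.lw M.E (M.Gv (a * ℓ)) (M.exp '' M.Gv (a * ℓ))ᶜ = 0 :=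
    measure_mono_null (compl_subset_compl.2 (image_mono inter_subset_right)) (M.lw_compl M.E (M.isCompact_Gv _))
  have hI' : Inv (P.map (· * γ i)) (M.exp '' M.Gv (a * ℓ))⁻¹ η₁ := by
    have h1 := M.inv_exp_Qi (M.star_EV (a * ℓ)) 1
    rw [one_smul] at h1
    exact (show (M.exp '' M.Gv (a * ℓ))⁻¹ = M.exp '' M.Gv (a * ℓ) from h1).symm ▸ hI
  have h2 := M.Inv_average hI' hG hT (Ω := ∅) (a := ENNReal.ofReal (B * Real.exp (-(c * ℓ)))) fun p _ => by
    refine H f p ℓ 1 l₁ l₂ e2 le_rfl (e2.trans hlen) (fun x hx => ?_) (by simpa [hl₁] using hlen) (by simpa [hl₂] using hlen)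
      fun α hα X hX hn => ?_
    · simp only [hl₁, hl₂, List.mem_append, List.mem_map, List.mem_range] at hx
      rcases hx with ⟨j, hj, rfl⟩ | ⟨j, hj, rfl⟩
      · exact M.ballCR_subset_ballR _ (s1 j hj)
      · exact M.ballCR_subset_ballR _ (s2 j hj)
    · by_cases hW : M.W α = ⊥
      · left
        rw [hW, Submodule.mem_bot] at hX
        rw [hX, M.exp_zero, mul_one, inv_mul_cancel]
        exact M.ballCR_subset_ballR _ (M.one_mem_ballCR zero_le_one)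
      obtain ⟨j, rfl⟩ := M.W_ne_bot.1 hW
      rw [hl₁, hl₂, pata_prod, pata_prod]
      refine (hm j hα).imp (fun h3 => e1 _ (pata_mem (by positivity) s1) _ X hX hn ?_)
        (fun h3 => e1 _ (pata_mem (by positivity) s2) _ X hX hn ?_)
      · rwa [M.chi_mul, M.chi_inv, neg_add_eq_sub]
      · rwa [M.chi_mul, M.chi_inv, neg_add_eq_sub]
  rw [measure_empty, add_zero, Measure.map_apply (measurable_mul_const _) hT] at h2
  refine (measure_mono fun q hq => ?_).trans h2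
  have hb1 : 0 ≤ b * ℓ := by positivity
  have hb2 : 0 ≤ b * ℓ - B₁ * 1 := by linarith
  exact ⟨pata_low hb1 hb2 δ₁ ℓ q fun j hj => hq (i + j) (by omega) (by omega),
    pata_low hb1 hb2 δ₂ ℓ q fun j hj => hq (i - j) (by omega) (by omega)⟩

/-! ### task Pat-b -/

theorem patb_fin {ι : Type*} {s : Set ι} (hs : s.Finite) {Q : ι → ℝ → ℝ → ℕ → Prop}
    (mono : ∀ β c B l c' B' l', c' ≤ c → 1 ≤ B → B ≤ B' → l ≤ l' → Q β c B l → Q β c' B' l')
    (h : ∀ β ∈ s, ∃ c B l, 0 < c ∧ 1 ≤ B ∧ Q β c B l) : ∃ c B l, 0 < c ∧ 1 ≤ B ∧ ∀ β ∈ s, Q β c B l := by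
  induction s, hs using Set.Finite.induction_on with
  | empty => exact ⟨1, 1, 0, one_pos, le_rfl, fun _ h => h.elim⟩
  | @insert a s _ _ ih =>
    obtain ⟨c, B, l, hc, hB, h1⟩ := ih fun β hβ => h β (Or.inr hβ)
    obtain ⟨c', B', l', hc', hB', h2⟩ := h a (Or.inl rfl)
    refine ⟨min c c', max B B', max l l', lt_min hc hc', hB.trans (le_max_left _ _), ?_⟩
    rintro β (rfl | hβ)
    · exact mono _ _ _ _ _ _ _ (min_le_right _ _) hB' (le_max_right _ _) (le_max_right _ _) h2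
    · exact mono _ _ _ _ _ _ _ (min_le_left _ _) hB (le_max_left _ _) (le_max_left _ _) (h1 β hβ)

theorem patb_geo {x : ℝ} (h0 : 0 ≤ x) (h1 : x < 1) (I : Finset ℕ) (g : ℕ → ℕ) (m : ℕ) (hg : InjOn g I)
    (hm : ∀ i ∈ I, m ≤ g i) : ∑ i ∈ I, x ^ g i ≤ x ^ m * (1 - x)⁻¹ := by
  have e : ∑ i ∈ I, x ^ g i = x ^ m * ∑ j ∈ I.image fun i => g i - m, x ^ j := by
    rw [Finset.sum_image fun i hi j hj e => hg hi hj (by
      have := hm i hi
      have := hm j hj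
      omega), Finset.mul_sum]
    refine Finset.sum_congr rfl fun i hi => ?_
    rw [← pow_add, Nat.add_sub_cancel' (hm i hi)]
  rw [e, ← tsum_geometric_of_lt_one h0 h1]
  exact mul_le_mul_of_nonneg_left ((summable_geometric_of_lt_one h0 h1).sum_le_tsum _ fun _ _ => by positivity)
    (by positivity)

/-- All vertices at distance `≥ m` from the ends, all `β ∈ R1` (`finite_R1`: take the worst constants).  Union bound with `ℓ i = min (min i (N - i)) ℓm ≥ m`,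
`exp (-c ℓ i) ≤ exp (-c i) + exp (-c (N - i)) + exp (-c ℓm)`, geometric series; `Inv.mono`, `Gv_mono`. -/
theorem pat (K Λ₁ a : ℝ) (ha : 0 < a) : ∃ (c B : ℝ) (ℓ₀ : ℕ), 0 < c ∧ 1 ≤ B ∧
    ∀ (f : M.QP K) (P : Measure M.G) (η₁ : ℝ) (γ : ℕ → M.G) (N ℓm m : ℕ), IsProbabilityMeasure P → 0 ≤ η₁ → ℓ₀ ≤ m → m ≤ ℓm →
      Pth M Λ₁ a γ N ℓm → (∀ i ≤ N, Inv (P.map (· * γ i)) (M.exp '' M.Gv (a * ℓm)) η₁) →
      P {q | ∃ β ∈ M.R1, ∃ i, m ≤ i ∧ i + m ≤ N ∧ ∀ j ≤ N, ht M f.φ β γ q j ≤ ht M f.φ β γ q i} ≤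
        ENNReal.ofReal (B * (Real.exp (-(c * m)) + (N + 1) * (Real.exp (-(c * ℓm)) + η₁))) := by
  obtain ⟨c, B, ℓ₀, hc, hB, H⟩ := patb_fin M.finite_R1 (fun β c B l c' B' l' h1 h2 h3 h4 hQ f P η₁ γ i ℓ a1 a2 a3 a4 a5 a6 =>
    (hQ f P η₁ γ i ℓ a1 (h4.trans a2) a3 a4 a5 a6).trans (add_le_add (ENNReal.ofReal_le_ofReal (mul_le_mul h3
      (Real.exp_le_exp.2 (neg_le_neg (mul_le_mul_of_nonneg_right h1 (Nat.cast_nonneg _)))) (Real.exp_pos _).le
      (by linarith))) le_rfl)) fun β hβ => pat1 K Λ₁ a ha hβ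
  set x := Real.exp (-c) with hx
  have x0 : 0 ≤ x := (Real.exp_pos _).le
  have x1 : x < 1 := Real.exp_lt_one_iff.2 (by linarith)
  have hG : 0 ≤ (1 - x)⁻¹ := inv_nonneg.2 (by linarith)
  have ex : ∀ n : ℕ, Real.exp (-(c * n)) = x ^ n := fun n => by
    rw [hx, ← Real.exp_nat_mul]
    congr 1
    ring
  set R := M.finite_R1.toFinset with hR
  have hn : 0 ≤ (R.card : ℝ) * B * (2 * (1 - x)⁻¹ + 1) := by positivity
  refine ⟨c, 1 + R.card * B * (2 * (1 - x)⁻¹ + 1), ℓ₀, hc, by linarith, fun f P η₁ γ N ℓm m hP hη h0 hm hγ hI => ?_⟩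
  set I := (Finset.range (N + 1)).filter fun i => m ≤ i ∧ i + m ≤ N with hI'
  have hmem : ∀ i ∈ I, m ≤ i ∧ i + m ≤ N := fun i hi => (Finset.mem_filter.1 hi).2
  have hsub : {q | ∃ β ∈ M.R1, ∃ i, m ≤ i ∧ i + m ≤ N ∧ ∀ j ≤ N, ht M f.φ β γ q j ≤ ht M f.φ β γ q i} ⊆
      ⋃ β ∈ R, ⋃ i ∈ I, {q | ∀ j ≤ i + min (min i (N - i)) ℓm, i - min (min i (N - i)) ℓm ≤ j →
        ht M f.φ β γ q j ≤ ht M f.φ β γ q i} := by
    rintro q ⟨β, hβ, i, h1, h2, h3⟩
    exact mem_iUnion₂.2 ⟨β, M.finite_R1.mem_toFinset.2 hβ, mem_iUnion₂.2 ⟨i, Finset.mem_filter.2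
      ⟨Finset.mem_range.2 (by omega), h1, h2⟩, fun j hj _ => h3 j (by omega)⟩⟩
  have hone : ∀ β ∈ R, P (⋃ i ∈ I, {q | ∀ j ≤ i + min (min i (N - i)) ℓm, i - min (min i (N - i)) ℓm ≤ j →
      ht M f.φ β γ q j ≤ ht M f.φ β γ q i}) ≤
      ENNReal.ofReal (B * (2 * (x ^ m * (1 - x)⁻¹) + (N + 1) * x ^ ℓm) + (N + 1) * η₁) := by
    intro β hβ
    refine (measure_biUnion_finset_le _ _).trans ((Finset.sum_le_sum
      (g := fun i => ENNReal.ofReal (B * (x ^ i + x ^ (N - i) + x ^ ℓm) + η₁)) fun i hi => ?_).trans ?_)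
    · obtain ⟨h1, h2⟩ := hmem i hi
      refine (H β (M.finite_R1.mem_toFinset.1 hβ) f P η₁ γ i (min (min i (N - i)) ℓm) hP (by omega) (by omega)
        (fun j hj => hγ.step j (by omega)) (hγ.mrg i _ (by omega) (by omega) rfl)
        ((hI i (by omega)).mono (image_mono (M.Gv_mono (mul_le_mul_of_nonneg_left
          (Nat.cast_le.2 (min_le_right _ _)) ha.le))) le_rfl)).trans ?_
      rw [← ENNReal.ofReal_add (by positivity) hη, ex]
      refine ENNReal.ofReal_le_ofReal (add_le_add (mul_le_mul_of_nonneg_left ?_ (by linarith)) le_rfl)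
      have a1 := pow_nonneg x0 i
      have a2 := pow_nonneg x0 (N - i)
      have a3 := pow_nonneg x0 ℓm
      rcases min_choice (min i (N - i)) ℓm with e | e
      · rcases min_choice i (N - i) with e' | e' <;> rw [e, e'] <;> linarith
      · rw [e]; linarith
    · rw [← ENNReal.ofReal_sum_of_nonneg fun i _ => by positivity]
      refine ENNReal.ofReal_le_ofReal ?_
      have a1 := patb_geo x0 x1 I id m (injOn_id _) fun i hi => (hmem i hi).1
      have a2 := patb_geo x0 x1 I (fun i => N - i) m (fun i hi j hj e => by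
        have := hmem i hi
        have := hmem j hj
        simp only at e
        omega) fun i hi => by have := hmem i hi; omega
      have a3 : (I.card : ℝ) ≤ N + 1 := by
        exact_mod_cast (Finset.card_filter_le _ _).trans (Finset.card_range _).le
      simp only [id] at a1
      rw [Finset.sum_add_distrib, ← Finset.mul_sum, Finset.sum_add_distrib, Finset.sum_add_distrib, Finset.sum_const,
        Finset.sum_const, nsmul_eq_mul, nsmul_eq_mul]
      refine add_le_add (mul_le_mul_of_nonneg_left ?_ (by linarith)) (mul_le_mul_of_nonneg_right a3 hη)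
      have a4 := mul_le_mul_of_nonneg_right a3 (pow_nonneg x0 ℓm)
      linarith
  refine (measure_mono hsub).trans ((measure_biUnion_finset_le _ _).trans ((Finset.sum_le_card_nsmul _ _ _ hone).trans ?_))
  rw [nsmul_eq_mul, ← ENNReal.ofReal_natCast, ← ENNReal.ofReal_mul (Nat.cast_nonneg _), ex, ex]
  refine ENNReal.ofReal_le_ofReal ?_
  have b0 : (0 : ℝ) ≤ R.card := Nat.cast_nonneg _
  have b1 : 0 ≤ x ^ m := pow_nonneg x0 _
  have b2 : 0 ≤ ((N : ℝ) + 1) * x ^ ℓm := by positivity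
  have b3 : 0 ≤ ((N : ℝ) + 1) * η₁ := by positivity
  have b4 : 0 ≤ (R.card : ℝ) * B := by positivity
  have b5 : (R.card : ℝ) ≤ R.card * B := le_mul_of_one_le_right b0 hB
  have b6 := mul_nonneg b4 hG
  nlinarith [mul_nonneg b4 b1, mul_nonneg b6 b2, mul_nonneg b6 b3, mul_le_mul_of_nonneg_right b5 b3]

theorem patc_eq (c d : M.G) (u : List M.G) (m t : ℕ) :
    hop M c d u m t = c * (d ^ min t m * (u.take (t - m)).prod * d ^ min (t - (m + u.length)) m) := by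
  rw [hop, List.take_append, List.take_append, List.take_replicate, List.take_replicate, List.prod_append, List.prod_append,
    List.prod_replicate, List.prod_replicate, List.length_append, List.length_replicate]

/-- a maximum of a Lipschitz sequence that goes up at the beginning and down at the end is far from the ends (`Finset.exists_max_image`) -/
theorem top_of {F : ℕ → ℝ} {N n m : ℕ} {C e : ℝ} (hC : 0 ≤ C) (hF : ∀ j < N, |F (j + 1) - F j| ≤ C) (hn : n ≤ N)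
    (h1 : F 0 + e ≤ F n) (h2 : F N + e ≤ F (N - n)) (hm : m * C < e) : ∃ i, m ≤ i ∧ i + m ≤ N ∧ ∀ j ≤ N, F j ≤ F i := by
  have hL : ∀ t j, j + t ≤ N → |F (j + t) - F j| ≤ t * C := by
    intro t j
    induction t with
    | zero => simp
    | succ t ih =>
      intro ht
      have h3 := abs_sub_le (F (j + t + 1)) (F (j + t)) (F j)
      have h4 := hF (j + t) (by omega)
      have h5 := ih (by omega)
      rw [← add_assoc]
      push_cast
      linarith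
  obtain ⟨i, hi, hmax⟩ := (Finset.range (N + 1)).exists_max_image F ⟨0, by simp⟩
  have hi' : i ≤ N := Nat.lt_succ_iff.1 (Finset.mem_range.1 hi)
  have hle : ∀ j ≤ N, F j ≤ F i := fun j hj => hmax j (Finset.mem_range.2 (Nat.lt_succ_of_le hj))
  refine ⟨i, not_lt.1 fun h => ?_, not_lt.1 fun h => ?_, hle⟩
  · have h3 := hL i 0 (by omega)
    rw [zero_add] at h3
    have h4 : (i : ℝ) * C ≤ m * C := mul_le_mul_of_nonneg_right (Nat.cast_le.2 h.le) hC
    linarith [hle n hn, (abs_le.1 h3).2]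
  · have h3 := hL (N - i) i (by omega)
    rw [Nat.add_sub_cancel' hi'] at h3
    have h4 : ((N - i : ℕ) : ℝ) * C ≤ m * C := mul_le_mul_of_nonneg_right (Nat.cast_le.2 (by omega)) hC
    linarith [hle (N - n) (Nat.sub_le _ _), (abs_le.1 h3).1]

/-! ### task Pat-c -/

theorem hop_left (c d : M.G) (u : List M.G) {m j : ℕ} (hj : j ≤ m) : hop M c d u m j = c * d ^ j := by
  rw [patc_eq, min_eq_left hj, Nat.sub_eq_zero_of_le hj, Nat.sub_eq_zero_of_le (hj.trans (Nat.le_add_right _ _))]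
  simp

theorem hop_right (c d : M.G) (u : List M.G) {m j : ℕ} (hj : j ≤ m) :
    hop M c d u m (m + u.length + j) = c * d ^ m * u.prod * d ^ j := by
  rw [patc_eq, min_eq_right (by omega), Nat.add_sub_cancel_left, min_eq_left hj, List.take_of_length_le (by omega)]
  simp only [mul_assoc]

theorem hop_step {Λ₁ : ℝ} (hΛ : 1 ≤ Λ₁) (c : M.G) {d : M.G} (hd : d ∈ M.ballCR Λ₁) {u : List M.G} (hu : M.WrdC u) (m j : ℕ) :
    (hop M c d u m j)⁻¹ * hop M c d u m (j + 1) ∈ M.ballCR Λ₁ := by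
  have hl : ∀ x ∈ List.replicate m d ++ u ++ List.replicate m d, x ∈ M.ballCR Λ₁ := by
    intro x hx
    simp only [List.mem_append, List.mem_replicate] at hx
    rcases hx with (⟨_, rfl⟩ | hx) | ⟨_, rfl⟩
    · exact hd
    · have h1 : M.WrdC [x] := fun y hy => hu y (by rw [List.mem_singleton.1 hy]; exact hx)
      exact M.ballCR_mono hΛ (by simpa using h1.prod_mem)
    · exact hd
  unfold hop
  rcases lt_or_ge j (List.replicate m d ++ u ++ List.replicate m d).length with hj | hj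
  · rw [List.prod_take_succ _ _ hj, ← mul_assoc c, inv_mul_cancel_left]
    exact hl _ (List.getElem_mem hj)
  · rw [List.take_of_length_le hj, List.take_of_length_le (hj.trans (Nat.le_succ j)), inv_mul_cancel]
    exact M.one_mem_ballCR (by linarith)

theorem hop_mem {Λ₁ r : ℝ} (hΛ : 1 ≤ Λ₁) {c d : M.G} (hc : c ∈ M.ballCR r) (hd : d ∈ M.ballCR Λ₁) {u : List M.G} (hu : M.WrdC u)
    (m j : ℕ) : hop M c d u m j ∈ M.ballCR (r + Λ₁ * j) := by
  induction j with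
  | zero => simpa [hop] using hc
  | succ j ih =>
    have h1 := M.mul_mem_ballCR ih (hop_step hΛ c hd hu m j)
    rw [mul_inv_cancel_left] at h1
    exact M.ballCR_mono (le_of_eq (by push_cast; ring)) h1

theorem patc_seg {u : List M.G} (hu : M.WrdC u) (n n' : ℕ) :
    nm (M.chi (u.take n).prod - M.chi (u.take n').prod) ≤ u.length := by
  wlog hn : n' ≤ n generalizing n n'
  · rw [← nm_neg, neg_sub]
    exact this n' n (le_of_not_ge hn)
  have e : u.take n = u.take n' ++ (u.take n).drop n' := by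
    conv_lhs => rw [← List.take_append_drop n' (u.take n), List.take_take, min_eq_left hn]
  have hw : M.Wrd ((u.take n).drop n') := fun x hx => hu.wrd x (List.mem_of_mem_take (List.mem_of_mem_drop hx))
  rw [e, List.prod_append, M.chi_mul, add_sub_cancel_left]
  refine (M.nm_chi_le _).trans (Nat.cast_le.2 (hw.len_le.trans ?_))
  rw [List.length_drop, List.length_take]
  omega

theorem patc_chi (c d : M.G) (u : List M.G) {m t : ℕ} (ht : t ≤ m + u.length + m) :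
    M.chi (hop M c d u m t) = M.chi c + M.chi (u.take (min (t - m) u.length)).prod +
      ((t : ℝ) - (min (t - m) u.length : ℕ)) • M.chi d := by
  have e : min t m + min (t - (m + u.length)) m + min (t - m) u.length = t := by omega
  have e' : (t : ℝ) - (min (t - m) u.length : ℕ) = (min t m : ℕ) + (min (t - (m + u.length)) m : ℕ) := by
    rw [sub_eq_iff_eq_add]; exact_mod_cast e.symm
  rw [patc_eq, M.chi_mul, M.chi_mul, M.chi_mul, M.chi_pow, M.chi_pow, e', add_smul, ← List.take_take, List.take_length]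
  abel

/-- `e j = chi (hop j) - j • chi d` is constant for `j ≤ m`, constant for `m + |u| ≤ j ≤ 2 m + |u|`, and changes by at most `1 + Λ₁` (in `nm`, `nm_chi_le`) at each of the
`|u|` steps of the hop.  If `ℓ < ℓm` then `ℓ = i` or `ℓ = N - i` and the window `[i - ℓ, i + ℓ]` misses the hop; in all cases
`wt j ⬝ (chi (γ (i ± ℓ)) - chi (γ i)) ≥ ± ℓ wt j ⬝ chi d - 2 a ℓ` (`abs_dot_le_nm`). -/
theorem pth_hop {Λ₁ a B₀ : ℝ} (hΛ : 1 ≤ Λ₁) (c : M.G) {d : M.G} (hd : d ∈ M.ballCR Λ₁) {u : List M.G} (hu : M.WrdC u) {m ℓm : ℕ}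
    (ha : ∀ j, M.wt j ≠ 0 → 4 * a ≤ |M.wt j ⬝ᵥ M.chi d|) (hB : ∀ j, nm (M.wt j) ≤ B₀) (hm : 2 * ℓm ≤ m)
    (hℓ : u.length * (B₀ * (1 + Λ₁)) ≤ 2 * a * ℓm) : Pth M Λ₁ a (hop M c d u m) (m + u.length + m) ℓm := by
  refine ⟨fun i _ => hop_step hΛ c hd hu m i, fun i ℓ h1 h2 h3 j hj => ?_⟩
  have ha' := ha j hj
  have hB' := hB j
  set α := M.wt j
  set δ := α ⬝ᵥ M.chi d with hδ
  have hB0 : 0 ≤ B₀ := (nm_nonneg α).trans hB'
  have hδ1 : |δ| ≤ B₀ * Λ₁ := (abs_dot_le_nm _ _).trans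
    (mul_le_mul hB' ((M.nm_chi_le d).trans (M.ballCR_subset_ballR _ hd)) (nm_nonneg _) hB0)
  have key : ∀ s t : ℕ, s ≤ m + u.length + m → t ≤ m + u.length + m →
      |α ⬝ᵥ (M.chi (hop M c d u m t) - M.chi (hop M c d u m s)) - ((t : ℝ) - s) * δ| ≤ u.length * (B₀ * (1 + Λ₁)) ∧
      (min (s - m) u.length = min (t - m) u.length →
        α ⬝ᵥ (M.chi (hop M c d u m t) - M.chi (hop M c d u m s)) = ((t : ℝ) - s) * δ) := by
    intro s t hs ht
    have e : α ⬝ᵥ (M.chi (hop M c d u m t) - M.chi (hop M c d u m s)) - ((t : ℝ) - s) * δ =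
        α ⬝ᵥ (M.chi (u.take (min (t - m) u.length)).prod - M.chi (u.take (min (s - m) u.length)).prod) -
          (((min (t - m) u.length : ℕ) : ℝ) - (min (s - m) u.length : ℕ)) * δ := by
      rw [patc_chi c d u ht, patc_chi c d u hs]
      simp only [dotProduct_sub, dotProduct_add, dotProduct_smul, smul_eq_mul, ← hδ]
      ring
    refine ⟨?_, fun h0 => ?_⟩
    · rw [e]
      have a1 : ((min (t - m) u.length : ℕ) : ℝ) ≤ u.length := Nat.cast_le.2 (min_le_right _ _)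
      have a2 : ((min (s - m) u.length : ℕ) : ℝ) ≤ u.length := Nat.cast_le.2 (min_le_right _ _)
      have a3 : |((min (t - m) u.length : ℕ) : ℝ) - (min (s - m) u.length : ℕ)| ≤ u.length :=
        abs_le.2 ⟨by linarith [Nat.cast_nonneg (α := ℝ) (min (t - m) u.length)],
          by linarith [Nat.cast_nonneg (α := ℝ) (min (s - m) u.length)]⟩
      refine (abs_sub _ _).trans ?_
      rw [abs_mul]
      have a4 := (abs_dot_le_nm α _).trans (mul_le_mul hB' (patc_seg hu (min (t - m) u.length) (min (s - m) u.length))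
        (nm_nonneg _) hB0)
      have a5 := mul_le_mul a3 hδ1 (abs_nonneg _) (Nat.cast_nonneg _)
      linarith
    · rw [← sub_eq_zero, e, h0]
      simp
  obtain ⟨p1, p2⟩ := key i (i + ℓ) (by omega) h2
  obtain ⟨q1, q2⟩ := key i (i - ℓ) (by omega) (by omega)
  rw [Nat.cast_add, add_sub_cancel_left] at p1 p2
  rw [Nat.cast_sub h1, sub_sub_cancel_left] at q1 q2
  have hℓ0 : (0 : ℝ) ≤ ℓ := Nat.cast_nonneg ℓ
  have hm4 := mul_le_mul_of_nonneg_left ha' hℓ0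
  have hm0 := mul_nonneg hℓ0 (abs_nonneg δ)
  rcases eq_or_ne ℓ ℓm with rfl | hne
  · rcases abs_cases δ with ⟨e, _⟩ | ⟨e, _⟩ <;> rw [e] at hm4
    · exact Or.inl (by linarith [(abs_le.1 p1).1])
    · exact Or.inr (by linarith [(abs_le.1 q1).1])
  · rw [p2 (by omega), q2 (by omega)]
    rcases abs_cases δ with ⟨e, _⟩ | ⟨e, _⟩ <;> rw [e] at hm4 hm0
    · exact Or.inl (by linarith)
    · exact Or.inr (by linarith)

end Crest.Agent.R182.PUR
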